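import Vale.Agent.P183K.Lift.Base

/-!
# P183K: modules of end type have monomial matrix coefficients (helper2)
-/

set_option autoImplicit false
set_option linter.all false

namespace Vale.Agent.P183K.Lift

open Matrix Subgroup Vale.Agent.P240.H195 Vale.Agent.P183CR Vale.Agent.P183M

universe u

variable {G : Type u} [Group G] {R F0 : Type} [CommRing R] [Field F0] {d : ℕ}
  {k : Type} [Field k]

lemma chi_add (c c' : (R →+* k) →₀ ℕ) (r : R) : chi (c + c') r = chi c r * chi c' r :=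
  Finsupp.prod_add_index' (fun _ => pow_zero _) fun _ _ _ => pow_add _ _ _

lemma chi_single (θ : R →+* k) (n : ℕ) (r : R) : chi (Finsupp.single θ n) r = θ r ^ n :=
  Finsupp.prod_single_index (pow_zero _)

lemma chi_zero (r : R) : chi (0 : (R →+* k) →₀ ℕ) r = 1 := Finsupp.prod_zero_index

lemma chi_mul (c : (R →+* k) →₀ ℕ) (r r' : R) : chi c (r * r') = chi c r * chi c r' := by
  unfold chi Finsupp.prod
  rw [← Finset.prod_mul_distrib]
  exact Finset.prod_congr rfl fun θ _ => by simp only [map_mul, mul_pow]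

/-- reduction to digits -/
lemma exists_digits {p : ℕ} (hp : p.Prime) [CharP k p] (c : (R →+* k) →₀ ℕ) :
    ∃ c' : (R →+* k) →₀ ℕ, (∀ θ, c' θ < p) ∧ ∀ r, chi c' r = chi c r := by
  haveI : Fact p.Prime := ⟨hp⟩
  induction hn : c.degree using Nat.strong_induction_on generalizing c with
  | _ n ih =>
    by_cases hc : ∀ θ, c θ < p
    · exact ⟨c, hc, fun _ => rfl⟩
    · push Not at hc
      obtain ⟨θ, hθ⟩ := hc
      have h1 : c = (c - Finsupp.single θ p) + Finsupp.single θ p :=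
        (tsub_add_cancel_of_le (Finsupp.single_le_iff.2 hθ)).symm
      obtain ⟨c', hc', hc''⟩ := ih _ (by
        rw [← hn]
        conv_rhs => rw [h1]
        rw [map_add, map_add, Finsupp.degree_single, Finsupp.degree_single]
        have := hp.one_lt
        omega) ((c - Finsupp.single θ p) + Finsupp.single ((frobenius k p).comp θ) 1) rfl
      refine ⟨c', hc', fun r => ?_⟩
      rw [hc'']
      conv_rhs => rw [h1]
      rw [chi_add, chi_add, chi_single, chi_single, pow_one, RingHom.comp_apply, frobenius_def]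

lemma mrep_apply {n : ℕ} (τ : G →* Matrix (Fin n) (Fin n) k) (g : G) (x : Fin n → k) :
    mrep τ g x = τ g *ᵥ x := Matrix.toLinAlgEquiv'_apply _ _

lemma lineStab_mrep {n : ℕ} (τ : G →* Matrix (Fin n) (Fin n) k) (v : Fin n → k) :
    lineStab (mrep τ) v = LS τ v := by
  ext g
  rw [mem_lineStab, mem_LS, mrep_apply]

lemma absIrr_mrep {n : ℕ} {τ : G →* Matrix (Fin n) (Fin n) k} (hτ : AI τ) {v : Fin n → k}
    (hv : v ≠ 0) : AbsIrr (mrep τ) := by
  refine ⟨⟨v, 0, hv⟩, ?_⟩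
  let e : Matrix (Fin n) (Fin n) k ≃ₗ[k] Module.End k (Fin n → k) :=
    (Matrix.toLinAlgEquiv' : Matrix (Fin n) (Fin n) k ≃ₐ[k] _).toLinearEquiv
  have h1 : Set.range (mrep τ) =
      (e : Matrix (Fin n) (Fin n) k →ₗ[k] Module.End k (Fin n → k)) '' Set.range τ := by
    rw [← Set.range_comp]
    rfl
  rw [h1, ← Submodule.map_span (e : Matrix (Fin n) (Fin n) k →ₗ[k] Module.End k (Fin n → k)),
    show Submodule.span k (Set.range τ) = ⊤ from hτ, Submodule.map_top, LinearEquiv.range]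

/-- the functional given by a vector -/
def fv {n : ℕ} (f : Fin n → k) : Module.Dual k (Fin n → k) := dotProductBilin k k f

lemma fv_apply {n : ℕ} (f x : Fin n → k) : fv f x = f ⬝ᵥ x := rfl

lemma fv_ne {n : ℕ} {f : Fin n → k} (hf : f ≠ 0) : fv f ≠ 0 := fun h =>
  hf (dotProduct_eq_zero f fun w => by rw [← fv_apply, h, LinearMap.zero_apply])

lemma fv_mem {n : ℕ} {τ : G →* Matrix (Fin n) (Fin n) k} {U : Subgroup G} {f : Fin n → k}
    (hf : ∀ u ∈ U, f ᵥ* τ u = f) : fv f ∈ fixS (mrep τ).dual U := by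
  intro u hu
  refine LinearMap.ext fun x => ?_
  rw [dual_app, mrep_apply, fv_apply, fv_apply, dotProduct_mulVec, hf _ (inv_mem hu)]

variable {p : ℕ} {D : Dat G R F0 d}

theorem p3_core [Finite G] [CharP k p] (h : CD p D) {n : ℕ} {τ : G →* Matrix (Fin n) (Fin n) k}
    {v f : Fin n → k} (hτ : AI τ) (hv0 : v ≠ 0) (hf0 : f ≠ 0) (hv : ∀ u ∈ D.U, τ u *ᵥ v = v)
    (hf : ∀ u ∈ D.U, f ᵥ* τ u = f) {ε : R} (hε : ε * ε = ε)
    (hP : LS τ v = LS D.ρ (ε • ee D.z)) (hB : D.B ≤ LS D.ρ (ee D.z))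
    (hN : ∀ g ∈ D.N, (∃ a : Rˣ, ε * D.β (ee D.z) (D.ρ g *ᵥ ee D.z) = ε * a) →
      D.n0⁻¹ * g ∈ LS D.ρ (ε • ee D.z))
    (h0 : IsUnit (D.β (ee D.z) (D.ρ D.n0 *ᵥ ee D.z)))
    (hdig : ∀ χ : Rˣ →* kˣ, (∀ a : Rˣ, ε * a = ε → χ a = 1) → ∃ c : (R →+* k) →₀ ℕ,
      (∀ a : Rˣ, chi c (a : R) = χ a) ∧ (∀ r r', ε * r = ε * r' → chi c r = chi c r') ∧
        ∀ r, (¬ ∃ a : Rˣ, ε * r = ε * a) → chi c r = 0) :
    ∃ c : (R →+* k) →₀ ℕ, (∀ θ, c θ < p) ∧ EndFun D τ v f c := by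
  have hp := CD.prime h
  have hsb := CD.sb h
  have hg : Good (mrep τ) D.B := h.sba.good_of_absIrr (absIrr_mrep hτ hv0)
  have hv' : v ∈ fixS (mrep τ) D.U := fun u hu => by rw [mrep_apply, hv u hu]
  have hcoef := fun g => h.sba.toSBP.coeff_ne_iff' hg hv' hv0 (fv_mem hf) (fv_ne hf0) h.long g
  simp only [lineStab_mrep, mrep_apply, fv_apply, hP] at hcoef
  have hinj : ∀ {c c' : k}, c • v = c' • v → c = c' := fun hcd => smul_left_injective k hv0 hcd
  have hfix : ∀ g, D.ρ g *ᵥ (ε • ee D.z) = ε • ee D.z → τ g *ᵥ v = v := by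
    intro g hg'
    let H : Subgroup G :=
      { carrier := {g | τ g *ᵥ v = v}
        one_mem' := by simp
        mul_mem' := fun {a b} ha hb => by
          show τ (a * b) *ᵥ v = v
          rw [rho_mulVec, hb, ha]
        inv_mem' := fun {a} ha => by
          show τ a⁻¹ *ᵥ v = v
          conv_lhs => rw [← ha]
          rw [rho_inv_mulVec] }
    refine ((closure_le H).2 ?_) (h.tor ε hε g hg')
    rintro a ⟨⟨m, hm⟩, ha⟩
    have h1 : a ∈ lineStab (mrep τ) v := by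
      rw [lineStab_mrep, hP]
      exact ⟨1, by rw [ha, Units.val_one, one_smul]⟩
    have := fix_of_pow hp hm h1
    rwa [mrep_apply] at this
  choose t ht ht' using h.surj
  have h1 : ∀ a : Rˣ, ∃ c : kˣ, τ (t a) *ᵥ v = (c : k) • v := fun a => by
    rw [← mem_LS, hP]
    exact LS_le_smul _ _ _ ⟨a, ht' a⟩
  choose χ hχ using h1
  have hchar : ∀ g (a : Rˣ), D.ρ g *ᵥ (ε • ee D.z) = (a : R) • ε • ee D.z →
      τ g *ᵥ v = (χ a : k) • v := by
    intro g a hga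
    have h2 := hfix ((t a)⁻¹ * g) (by
      rw [rho_mulVec, hga, smul_comm, ← ht' a, mulVec_smul, rho_inv_mulVec])
    rw [← hχ]
    conv_rhs => rw [← h2, ← rho_mulVec, mul_inv_cancel_left]
  have hone : ∀ a : Rˣ, ε * a = ε → χ a = 1 := fun a ha => Units.ext (hinj (by
    rw [← hchar 1 a (by rw [map_one, one_mulVec, smul_smul, mul_comm, ha]), map_one, one_mulVec,
      Units.val_one, one_smul]))
  obtain ⟨c, hc1, hc2, hc3⟩ := hdig
    { toFun := χ
      map_one' := hone 1 (mul_one _)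
      map_mul' := fun a b => Units.ext (hinj (by
        rw [← hchar (t a * t b) (a * b) (by
          rw [rho_mulVec, mulVec_smul, ht', mulVec_smul, mulVec_smul, ht', smul_smul, smul_smul,
            smul_smul, Units.val_mul]
          congr 1; ring), rho_mulVec, hχ, mulVec_smul, hχ, smul_smul, Units.val_mul,
          mul_comm])) } hone
  obtain ⟨c', hc', hc''⟩ := exists_digits hp c
  obtain ⟨a0, ha0⟩ := h0
  have hn0 : f ⬝ᵥ (τ D.n0 *ᵥ v) ≠ 0 := (hcoef _).2 ⟨1, one_mem _, 1, one_mem _, by group⟩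
  refine ⟨c', hc', f ⬝ᵥ (τ D.n0 *ᵥ v) * ((χ a0)⁻¹ : kˣ), mul_ne_zero hn0 (Units.ne_zero _),
    fun g => ?_⟩
  rw [hc'']
  by_cases hgU : ∃ u ∈ D.U, ∃ y ∈ LS D.ρ (ε • ee D.z), g = u * D.n0 * y
  · obtain ⟨u, hu, y, ⟨a, ha⟩, rfl⟩ := hgU
    have h2 : ε * D.β (ee D.z) (D.ρ (u * D.n0 * y) *ᵥ ee D.z) = ε * ((a * a0 : Rˣ) : R) := by
      rw [← β_smul, ← mulVec_smul, rho_mulVec, ha, rho_mulVec, CD.β_U h hu, mulVec_smul,
        mulVec_smul, β_smul, β_smul, ← ha0, Units.val_mul]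
      ring
    rw [hc2 _ _ h2, hc1, rho_mulVec, map_mul _ a a0, hchar y a ha, mulVec_smul, dotProduct_smul,
      rho_mulVec, dotProduct_mulVec, hf u hu, smul_eq_mul, Units.val_mul]
    show _ = _ * (((χ a0)⁻¹ : kˣ) : k) * ((χ a : k) * (χ a0 : k))
    rw [mul_assoc, mul_left_comm (((χ a0)⁻¹ : kˣ) : k), Units.inv_mul, mul_one, mul_comm]
  · rw [not_not.1 (mt (hcoef g).1 hgU), hc3, mul_zero]
    rintro ⟨a, ha⟩
    apply hgU
    obtain ⟨m, hm, b₁, hb₁, b₂, hb₂, rfl⟩ := hsb.bruhat g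
    obtain ⟨u, hu, s, hsB, hsN, rfl⟩ := hsb.split b₁ hb₁
    obtain ⟨a₂, ha₂⟩ := hB hb₂
    refine ⟨u, hu, D.n0⁻¹ * (s * m) * b₂, mul_mem (hN _ (mul_mem hsN hm) ⟨a * a₂⁻¹, ?_⟩)
      (LS_le_smul _ _ _ ⟨a₂, ha₂⟩), by group⟩
    rw [show u * s * m * b₂ = u * (s * m * b₂) by group, rho_mulVec, CD.β_U h hu, rho_mulVec, ha₂,
      mulVec_smul, β_smul] at ha
    rw [Units.val_mul, ← mul_assoc, ← ha, mul_assoc, mul_right_comm, Units.mul_inv, one_mul]

lemma exists_exp' {F : Type} [Field F] [Finite F] (φ : F →+* k) (χ : Fˣ →* kˣ) {ε : F}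
    (hε : ε = 0 ∨ ε = 1) (hχ : ε = 0 → ∀ a, χ a = 1) :
    ∃ m : ℕ, (∀ a : Fˣ, φ a ^ m = χ a) ∧ (∀ r r', ε * r = ε * r' → φ r ^ m = φ r' ^ m) ∧
      (ε = 1 → φ 0 ^ m = 0) := by
  rcases hε with h | h
  · exact ⟨0, fun a => by rw [hχ h, pow_zero, Units.val_one], fun _ _ _ => by simp,
      fun h1 => absurd (h.symm.trans h1) zero_ne_one⟩
  · obtain ⟨m, h1, -, h2⟩ := Def.exists_exp φ χ
    refine ⟨m, fun a => (h2 a).symm, fun r r' hr => ?_, fun _ => ?_⟩
    · rw [h, one_mul, one_mul] at hr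
      rw [hr]
    · rw [map_zero, zero_pow (by omega)]

lemma rf_apply_of_ne {a b c : Fin d} (h1 : c ≠ a) (h2 : c ≠ b) (h3 : c ≠ a.rev) (h4 : c ≠ b.rev) :
    rf a b c = c := by
  unfold rf
  rw [Equiv.Perm.mul_apply, Equiv.swap_apply_of_ne_of_ne h3 h4, Equiv.swap_apply_of_ne_of_ne h1 h2]

lemma rf_left {a b : Fin d} (h3 : a ≠ a.rev) (h4 : a ≠ b.rev) : rf a b a = b := by
  unfold rf
  rw [Equiv.Perm.mul_apply, Equiv.swap_apply_of_ne_of_ne h3 h4, Equiv.swap_apply_left]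

section Forms
variable {F : Type} [Field F] {D : Dat G F F0 d} (h : CDF p D)
include h

lemma CDF.z_not_mid (hm : 3 ≤ D.m) : ¬ D.Mid D.z := CD.not_mid h.toCD (by rw [h.z0]; omega)

lemma CDF.B_le (hm : 3 ≤ D.m) : D.B ≤ LS D.ρ (ee D.z) := by
  intro b hb
  obtain ⟨u, hu, t, ht, ht', rfl⟩ := (CD.sb h.toCD).split b hb
  exact mul_mem ⟨1, by rw [CD.U_fix h.toCD hu, Units.val_one, one_smul]⟩
    ((h.mon_T t ht ht').2.1 _ (CDF.z_not_mid h hm))

lemma CDF.nd_mem_iff (hm : 3 ≤ D.m) {i : ℕ} (hi : i < D.rk) :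
    D.nd i ∈ LS D.ρ (ee D.z) ↔ i ≠ 0 := by
  have hz := CDF.z_not_mid h hm
  have h0 := h.z0
  have h1 := h.le_d
  have h2 := h.rk_eq
  have key : ∀ w, D.Mon (D.ρ (D.nd i)) w → (D.nd i ∈ LS D.ρ (ee D.z) ↔ w D.z = D.z) := by
    intro w hw
    obtain ⟨c, hc⟩ := hw.2.1 _ hz
    constructor
    · rintro ⟨c', hc'⟩
      exact ee_smul_inj (hc.symm.trans hc')
    · intro h3
      rw [h3] at hc
      exact ⟨c, hc⟩
  by_cases hi' : i + 1 < D.m
  · have := h.mon_nd ⟨i, by omega⟩ ⟨i + 1, by omega⟩ rfl hi'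
    rw [key _ this]
    constructor
    · rintro h3 rfl
      have e : (⟨0, by omega⟩ : Fin d) = D.z := Fin.ext h0.symm
      rw [e, rf_left] at h3
      · have := congrArg Fin.val h3
        simp only at this
        omega
      · intro h4
        have := congrArg Fin.val h4
        rw [Fin.val_rev] at this
        omega
      · intro h4
        have := congrArg Fin.val h4
        simp only [Fin.val_rev] at this
        omega
    · intro h3
      refine rf_apply_of_ne ?_ ?_ ?_ ?_ <;> intro h4 <;> have := congrArg Fin.val h4 <;>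
        simp only [Fin.val_rev] at this <;> omega
  · refine iff_of_true ?_ (by omega)
    by_cases hD : D.dty
    · have := h.mon_last' hD ⟨i - 1, by omega⟩ ⟨i, by omega⟩ (by simp only; omega)
        (by simp only; omega)
      rw [key _ this]
      refine rf_apply_of_ne ?_ ?_ ?_ ?_ <;> intro h4 <;> have := congrArg Fin.val h4 <;>
        simp only [Fin.val_rev] at this <;> omega
    · have := h.mon_last hD ⟨i, by omega⟩ (by simp only; omega)
      rw [key _ this]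
      refine Equiv.swap_apply_of_ne_of_ne ?_ ?_ <;> intro h4 <;> have := congrArg Fin.val h4 <;>
        simp only [Fin.val_rev] at this <;> omega

lemma CDF.n0_ee (hm : 3 ≤ D.m) : ∃ c : Fˣ, D.ρ D.n0 *ᵥ ee D.z = (c : F) • ee D.z.rev := by
  obtain ⟨w, hw, hw'⟩ := h.mon_n0
  have h0 := h.z0
  obtain ⟨c, hc⟩ := hw.2.1 _ (CDF.z_not_mid h hm)
  rw [hw' D.z (by omega) (fun _ => by omega)] at hc
  exact ⟨c, hc⟩

/-- **P3** for symplectic, unitary and orthogonal groups -/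
theorem CDF.p3 [Finite G] [Finite F] [CharP k p] (φ : F →+* k) (hm : 3 ≤ D.m) : P3 p k D := by
  intro n τ v f hτ hv0 hf0 hv hf hE
  have hz := CDF.z_not_mid h hm
  obtain ⟨c0, hc0⟩ := CDF.n0_ee h hm
  have h0 : IsUnit (D.β (ee D.z) (D.ρ D.n0 *ᵥ ee D.z)) := by
    rw [hc0, β_smul, ee_β_ee]
    exact c0.isUnit.mul (h.J_unit _ hz)
  have hg : Good (mrep τ) D.B := h.sba.good_of_absIrr (absIrr_mrep hτ hv0)
  have hBP : D.B ≤ LS τ v := by
    rw [← lineStab_mrep]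
    exact h.sba.toSBP.le_lineStab hg (fun u hu => by rw [mrep_apply, hv u hu]) hv0
  have hdig : ∀ ε : F, ε = 0 ∨ ε = 1 → ∀ χ : Fˣ →* kˣ, (∀ a : Fˣ, ε * a = ε → χ a = 1) →
      ∃ c : (F →+* k) →₀ ℕ, (∀ a : Fˣ, chi c (a : F) = χ a) ∧
      (∀ r r', ε * r = ε * r' → chi c r = chi c r') ∧
        ∀ r, (¬ ∃ a : Fˣ, ε * r = ε * a) → chi c r = 0 := by
    intro ε hε χ hχ
    obtain ⟨m, h1, h2, h3⟩ := exists_exp' φ χ hε fun h4 a => hχ a (by rw [h4, zero_mul])
    refine ⟨Finsupp.single φ m, fun a => by rw [chi_single, h1], fun r r' hr => by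
      rw [chi_single, chi_single, h2 r r' hr], fun r hr => ?_⟩
    have h4 : ε = 1 := hε.resolve_left fun h5 => hr ⟨1, by rw [h5, zero_mul, zero_mul]⟩
    have h5 : r = 0 := by
      by_contra h6
      exact hr ⟨Units.mk0 r h6, rfl⟩
    rw [chi_single, h5, h3 h4]
  have htop : ∀ g, g ∈ LS D.ρ ((0 : F) • ee D.z) := fun g =>
    ⟨1, by rw [zero_smul, mulVec_zero, smul_zero]⟩
  by_cases hnd : D.nd 0 ∈ LS τ v
  · refine p3_core h.toCD hτ hv0 hf0 hv hf (ε := 0) (zero_mul _) ?_ (CDF.B_le h hm)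
      (fun _ _ _ => htop _) h0 (hdig 0 (Or.inl rfl))
    refine eq_of_gen (CD.sb h.toCD).toBN hBP (fun b _ => htop b) ?_
    rintro _ ⟨i, hi, rfl⟩
    refine iff_of_true ?_ (htop _)
    by_cases hi0 : i = 0
    · rw [hi0]; exact hnd
    · exact hE i hi (Nat.pos_of_ne_zero hi0) fun h1 => absurd h1 h.nl
  · refine p3_core h.toCD hτ hv0 hf0 hv hf (ε := 1) (one_mul _) ?_ (CDF.B_le h hm) ?_ h0
      (hdig 1 (Or.inr rfl))
    · rw [one_smul]
      refine eq_of_gen (CD.sb h.toCD).toBN hBP (CDF.B_le h hm) ?_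
      rintro _ ⟨i, hi, rfl⟩
      rw [CDF.nd_mem_iff h hm hi]
      exact ⟨by rintro h1 rfl; exact hnd h1,
        fun hi0 => hE i hi (Nat.pos_of_ne_zero hi0) fun h1 => absurd h1 h.nl⟩
    · rintro g hgN ⟨a, ha⟩
      obtain ⟨w, hw⟩ := h.mon g hgN
      obtain ⟨c, hc⟩ := hw.2.1 _ hz
      rw [one_mul, one_mul, hc, β_smul, ee_β_ee] at ha
      have h1 : w D.z = D.z.rev := by
        by_contra h2
        rw [h.J_zero _ _ h2 (fun h3 => hz h3.1), mul_zero] at ha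
        exact a.ne_zero ha.symm
      rw [one_smul]
      refine inv_mul_mem_LS (c := c * c0⁻¹) ?_
      rw [hc, hc0, h1, smul_smul, Units.val_mul, mul_assoc, Units.inv_mul, mul_one]

end Forms

section Linear
variable {F : Type} [Field F] {D : Dat G (F × F) F0 d} (h : CDL p D)
include h

lemma CDL.mem_LS_iff {g : G} {w : Equiv.Perm (Fin d)} (hg : Mon1 (D.ρ1 g) w) {ε : F × F}
    (h1 : ε.1 = 0 ∨ ε.1 = 1) (h2 : ε.2 = 0 ∨ ε.2 = 1) :
    g ∈ LS D.ρ (ε • ee D.z) ↔ (ε.1 = 1 → w D.z = D.z) ∧ (ε.2 = 1 → w D.z.rev = D.z.rev) := by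
  obtain ⟨c, hc⟩ := hg D.z
  obtain ⟨c', hc', -⟩ := CDL.mon2 h hg D.z
  constructor
  · rintro ⟨a, ha⟩
    constructor
    · intro h3
      by_contra h4
      have h5 := congrArg Prod.fst (congrFun ha (w D.z))
      rw [mulVec_smul, Pi.smul_apply, Pi.smul_apply, Pi.smul_apply, ee_ne h4, mulVec_ee, smul_zero,
        smul_zero, smul_eq_mul, Prod.fst_mul, h3, one_mul, ← ρ1_apply, entry_of_ee hc,
        if_pos rfl] at h5
      exact c.ne_zero h5
    · intro h3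
      by_contra h4
      have h4' : (w D.z.rev).rev ≠ D.z := fun h6 => h4 (Fin.rev_eq_iff.1 h6)
      have h5 := congrArg Prod.snd (congrFun ha (w D.z.rev).rev)
      rw [mulVec_smul, Pi.smul_apply, Pi.smul_apply, Pi.smul_apply, ee_ne h4', mulVec_ee, smul_zero,
        smul_zero, smul_eq_mul, Prod.snd_mul, h3, one_mul, ← ρ2_apply, entry_of_ee hc',
        if_pos rfl] at h5
      exact c'.ne_zero h5
  · rintro ⟨h3, h4⟩
    refine mem_LS_prod (x := ee D.z) (y := ee D.z) (c := c) (c' := c')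
      (fun i => congrFun (map_ee (RingHom.fst F F) D.z) i)
      (fun i => congrFun (map_ee (RingHom.snd F F) D.z) i) ?_ ?_
    · rcases h1 with h1 | h1
      · rw [h1, zero_smul, zero_smul, smul_zero]
      · rw [hc, h3 h1, smul_comm]
    · rcases h2 with h2 | h2
      · rw [h2, zero_smul, zero_smul, smul_zero]
      · rw [hc', h4 h2, Fin.rev_rev, smul_comm]

lemma CDL.B_le : D.B ≤ LS D.ρ (ee D.z) := by
  intro b hb
  obtain ⟨u, hu, t, ht, ht', rfl⟩ := (CD.sb h.toCD).split b hb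
  refine mul_mem ⟨1, by rw [CD.U_fix h.toCD hu, Units.val_one, one_smul]⟩ ?_
  have := (CDL.mem_LS_iff h (h.mon_T t ht ht') (ε := 1) (Or.inr rfl) (Or.inr rfl)).2
    ⟨fun _ => rfl, fun _ => rfl⟩
  rwa [one_smul] at this

lemma CDL.nd_mem_iff {i : ℕ} (hi : i < D.rk) {ε : F × F}
    (h1 : ε.1 = 0 ∨ ε.1 = 1) (h2 : ε.2 = 0 ∨ ε.2 = 1) :
    D.nd i ∈ LS D.ρ (ε • ee D.z) ↔ (ε.1 = 1 → i ≠ 0) ∧ (ε.2 = 1 → i + 1 ≠ D.rk) := by
  have h3 := h.rk_eq
  have h0 := h.z0
  have := h.mon_nd ⟨i, by omega⟩ ⟨i + 1, by omega⟩ rfl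
  rw [CDL.mem_LS_iff h this h1 h2]
  refine and_congr (imp_congr_right fun _ => ?_) (imp_congr_right fun _ => ?_)
  · rw [Equiv.swap_apply_def]
    split_ifs with h4 h5
    · simp only [Fin.ext_iff, Fin.val_rev] at h4 ⊢; omega
    · simp only [Fin.ext_iff, Fin.val_rev] at h4 h5 ⊢; omega
    · simp only [Fin.ext_iff, Fin.val_rev, true_iff] at h4 h5 ⊢; omega
  · rw [Equiv.swap_apply_def]
    split_ifs with h4 h5
    · simp only [Fin.ext_iff, Fin.val_rev] at h4 ⊢; omega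
    · simp only [Fin.ext_iff, Fin.val_rev] at h4 h5 ⊢; omega
    · simp only [Fin.ext_iff, Fin.val_rev, true_iff] at h4 h5 ⊢; omega

lemma CDL.β_mon {g : G} {w : Equiv.Perm (Fin d)} (hg : Mon1 (D.ρ1 g) w) :
    ∃ c c' : Fˣ, D.ρ1 g *ᵥ ee D.z = (c : F) • ee (w D.z) ∧
      ρ2 D g *ᵥ ee D.z = (c' : F) • ee (w D.z.rev).rev ∧
      ((D.β (ee D.z) (D.ρ g *ᵥ ee D.z)).1 ≠ 0 ↔ w D.z = D.z.rev) ∧
      ((D.β (ee D.z) (D.ρ g *ᵥ ee D.z)).2 ≠ 0 ↔ (w D.z.rev).rev = D.z.rev) := by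
  obtain ⟨c, hc⟩ := hg D.z
  obtain ⟨c', hc', -⟩ := CDL.mon2 h hg D.z
  refine ⟨c, c', hc, hc', ?_, ?_⟩
  · rw [ee_β, CDL.J_mulVec h, mulVec_ee, Prod.fst_mul, ← ρ1_apply, entry_of_ee hc]
    split_ifs with h1
    · exact iff_of_true (mul_ne_zero (CDL.J1_ne h _) c.ne_zero) h1.symm
    · exact iff_of_false (by rw [mul_zero]; exact fun h2 => h2 rfl) fun h2 => h1 h2.symm
  · rw [ee_β, CDL.J_mulVec h, mulVec_ee, Prod.snd_mul, ← ρ2_apply, entry_of_ee hc']
    split_ifs with h1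
    · exact iff_of_true (mul_ne_zero (CDL.J2_ne h _) c'.ne_zero) h1.symm
    · exact iff_of_false (by rw [mul_zero]; exact fun h2 => h2 rfl) fun h2 => h1 h2.symm

/-- **P3** for linear groups -/
theorem CDL.p3 [Finite G] [Finite F] [CharP k p] (φ : F →+* k) : P3 p k D := by
  classical
  intro n τ v f hτ hv0 hf0 hv hf hE
  obtain ⟨c0, c0', hc0, hc0', h01, h02⟩ := CDL.β_mon h h.mon_n0
  simp only [Fin.revPerm_apply, Fin.rev_rev, iff_true] at hc0 hc0' h01 h02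
  have h0 : IsUnit (D.β (ee D.z) (D.ρ D.n0 *ᵥ ee D.z)) :=
    Prod.isUnit_iff.2 ⟨h01.isUnit, h02.isUnit⟩
  have hg : Good (mrep τ) D.B := h.sba.good_of_absIrr (absIrr_mrep hτ hv0)
  have hBP : D.B ≤ LS τ v := by
    rw [← lineStab_mrep]
    exact h.sba.toSBP.le_lineStab hg (fun u hu => by rw [mrep_apply, hv u hu]) hv0
  set ε : F × F := (if D.nd 0 ∈ LS τ v then 0 else 1, if D.nd (D.rk - 1) ∈ LS τ v then 0 else 1)
    with hεd
  have h1 : ε.1 = 0 ∨ ε.1 = 1 := by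
    rw [hεd]; simp only; split_ifs <;> simp
  have h2 : ε.2 = 0 ∨ ε.2 = 1 := by
    rw [hεd]; simp only; split_ifs <;> simp
  have h1' : ε.1 = 1 ↔ D.nd 0 ∉ LS τ v := by
    rw [hεd]; simp only; split_ifs with h3 <;> simp [h3]
  have h2' : ε.2 = 1 ↔ D.nd (D.rk - 1) ∉ LS τ v := by
    rw [hεd]; simp only; split_ifs with h3 <;> simp [h3]
  clear_value ε
  refine p3_core h.toCD hτ hv0 hf0 hv hf (ε := ε) ?_ ?_ (CDL.B_le h) ?_ h0 ?_
  · ext
    · rcases h1 with h1 | h1 <;> simp [h1]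
    · rcases h2 with h2 | h2 <;> simp [h2]
  · refine eq_of_gen (CD.sb h.toCD).toBN hBP ((CDL.B_le h).trans (LS_le_smul _ _ _)) ?_
    rintro _ ⟨i, hi, rfl⟩
    rw [CDL.nd_mem_iff h hi h1 h2, h1', h2']
    constructor
    · intro h3
      refine ⟨?_, fun h4 h5 => h4 ?_⟩
      · rintro h4 rfl
        exact h4 h3
      · rwa [← h5, Nat.add_sub_cancel]
    · rintro ⟨h3, h4⟩
      by_cases hi0 : i = 0
      · by_contra h5
        exact h3 (by rwa [hi0] at h5) hi0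
      · by_cases hi1 : i + 1 = D.rk
        · by_contra h5
          exact h4 (by rwa [← hi1, Nat.add_sub_cancel]) hi1
        · exact hE i hi (Nat.pos_of_ne_zero hi0) fun _ => by omega
  · rintro g hgN ⟨a, ha⟩
    obtain ⟨w, hw⟩ := h.mon g hgN
    obtain ⟨c, c', hc, hc', h3, h4⟩ := CDL.β_mon h hw
    have ha1 : (a : F × F).1 ≠ 0 := (a.isUnit.map (RingHom.fst F F)).ne_zero
    have ha2 : (a : F × F).2 ≠ 0 := (a.isUnit.map (RingHom.snd F F)).ne_zero
    obtain ⟨e, he⟩ := mem_LS_prod (D := D) (g := g) (a := D.z) (ε := ε)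
      (v := D.ρ D.n0 *ᵥ ee D.z) (x := D.ρ1 D.n0 *ᵥ ee D.z) (y := ρ2 D D.n0 *ᵥ ee D.z)
      (c := c * c0⁻¹) (c' := c' * c0'⁻¹)
      (fun i => by rw [mulVec_ee, mulVec_ee]; rfl) (fun i => by rw [mulVec_ee, mulVec_ee]; rfl)
      (by
        rcases h1 with h1 | h1
        · rw [h1, zero_smul, zero_smul, smul_zero]
        · have h5 := congrArg Prod.fst ha
          rw [Prod.fst_mul, Prod.fst_mul, h1, one_mul, one_mul] at h5
          rw [hc, hc0, h3.1 (by rwa [h5]), h1, one_smul, one_smul, smul_smul, Units.val_mul,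
            mul_assoc, Units.inv_mul, mul_one])
      (by
        rcases h2 with h2 | h2
        · rw [h2, zero_smul, zero_smul, smul_zero]
        · have h5 := congrArg Prod.snd ha
          rw [Prod.snd_mul, Prod.snd_mul, h2, one_mul, one_mul] at h5
          rw [hc', hc0', h4.1 (by rwa [h5]), h2, one_smul, one_smul, smul_smul, Units.val_mul,
            mul_assoc, Units.inv_mul, mul_one])
    exact inv_mul_mem_LS (c := e) (by rw [he, mulVec_smul])
  · intro χ hχ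
    let i1 : Fˣ →* (F × F)ˣ := Units.map (MonoidHom.inl F F)
    let i2 : Fˣ →* (F × F)ˣ := Units.map (MonoidHom.inr F F)
    obtain ⟨m1, a1, b1, c1⟩ := exists_exp' φ (χ.comp i1) h1 fun h3 a => hχ _ (by
      ext
      · rw [Prod.fst_mul, h3, zero_mul]
      · exact mul_one _)
    obtain ⟨m2, a2, b2, c2⟩ := exists_exp' φ (χ.comp i2) h2 fun h3 a => hχ _ (by
      ext
      · exact mul_one _
      · rw [Prod.snd_mul, h3, zero_mul])
    have hchi : ∀ r : F × F, chi (Finsupp.single (φ.comp (RingHom.fst F F)) m1 +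
        Finsupp.single (φ.comp (RingHom.snd F F)) m2) r = φ r.1 ^ m1 * φ r.2 ^ m2 := fun r => by
      rw [chi_add, chi_single, chi_single]; rfl
    refine ⟨Finsupp.single (φ.comp (RingHom.fst F F)) m1 +
      Finsupp.single (φ.comp (RingHom.snd F F)) m2, fun a => ?_, fun r r' hr => ?_, fun r hr => ?_⟩
    · rw [hchi]
      have e : a = i1 (Units.map (MonoidHom.fst F F) a) * i2 (Units.map (MonoidHom.snd F F) a) := by
        ext
        · exact (mul_one _).symm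
        · exact (one_mul _).symm
      conv_rhs => rw [e, map_mul, Units.val_mul]
      exact congrArg₂ (· * ·) (a1 (Units.map (MonoidHom.fst F F) a))
        (a2 (Units.map (MonoidHom.snd F F) a))
    · rw [hchi, hchi, b1 _ _ (congrArg Prod.fst hr), b2 _ _ (congrArg Prod.snd hr)]
    · rw [hchi]
      by_contra h3
      obtain ⟨h4, h5⟩ := mul_ne_zero_iff.1 h3
      have key : ∀ e x : F, e = 0 ∨ e = 1 → (e = 1 → x ≠ 0) → ∃ a : Fˣ, e * x = e * a := by
        rintro e x (h6 | h6) h7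
        · exact ⟨1, by rw [h6, zero_mul, zero_mul]⟩
        · exact ⟨Units.mk0 x (h7 h6), rfl⟩
      obtain ⟨x1, hx1⟩ := key _ r.1 h1 fun h6 h7 => h4 (by rw [h7, c1 h6])
      obtain ⟨x2, hx2⟩ := key _ r.2 h2 fun h6 h7 => h5 (by rw [h7, c2 h6])
      exact hr ⟨MulEquiv.prodUnits.symm (x1, x2), Prod.ext hx1 hx2⟩

end Linear

end Vale.Agent.P183K.Lift
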