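import Vale.Agent.P183K.Lift.Lift
import Vale.Agent.P183K.Lift.P3
import Vale.Agent.P183M.IF

/-!
# P183K: towers of covers, and `P3` (helper2)
-/

set_option autoImplicit false
set_option linter.all false

namespace Vale.Agent.P183K.Lift

open Matrix Subgroup Vale.Agent.P183M
open Vale.Agent.P183K.Def (CP liftS)

lemma exists_emb (p : ℕ) [Fact p.Prime] (F : Type) [Field F] [Finite F] [CharP F p] :
    Nonempty (F →+* kk p) := by
  letI : Algebra (ZMod p) F := ZMod.algebra F p
  exact ⟨(IsAlgClosed.lift : F →ₐ[ZMod p] kk p).toRingHom⟩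

lemma kind_p3 {p : ℕ} [Fact p.Prime] {G : Type} [Group G] [Finite G] {F0 : Type} [Field F0] {d : ℕ}
    {R : Type} [CommRing R] (hR : Finite R) {D : Dat G R F0 d} (h : Kind p R D) (hm : 5 ≤ D.m) :
    P3 p (kk p) D := by
  cases h with
  | f h =>
    haveI := h.char
    obtain ⟨φ⟩ := exists_emb p R
    exact CDF.p3 h φ (by omega)
  | @l F _ D h =>
    haveI : Finite F := Finite.prod_left F
    haveI : CharP F p := by
      haveI := h.char
      refine (CharP.charP_iff_prime_eq_zero (CD.prime h.toCD)).2 ?_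
      rw [← map_natCast (RingHom.fst F F) p, CharP.cast_eq_zero (F × F) p, map_zero]
    obtain ⟨φ⟩ := exists_emb p F
    exact CDL.p3 h φ

theorem pp3 : PP3 := fun _ _ _ _ _ C hm => kind_p3 C.finR C.kind hm

lemma kind_pull {p : ℕ} {E G : Type} [Group E] [Finite E] [Group G] {π : E →* G} (c : CP p π)
    (hE : closure {e : E | IsP p e} = ⊤) {F0 : Type} [Field F0] {d : ℕ}
    {R : Type} [CommRing R] (hR : Finite R) {D : Dat G R F0 d} (h : Kind p R D) (hm : 5 ≤ D.m) :
    Kind p R (pull D p π) := by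
  cases h with
  | f h => exact Kind.f (CDF.lift c hE h (by omega))
  | @l F _ D h =>
    haveI : Finite F := Finite.prod_left F
    exact Kind.l (CDL.lift c hE h (by omega))

variable {p : ℕ} {G : Type} [Group G] {T T' : Subgroup G}

lemma cv_central (C : Cv p T) {z : C.E} (hz : C.θ z = 1) (g : C.E) : z * g = g * z := by
  have h := C.kind.cd
  obtain ⟨a, ha⟩ := (C.ker z).1 hz
  have : closure {g : C.E | IsP p g} ≤ centralizer {z} := (closure_le _).2 fun x hx => by
    rw [SetLike.mem_coe, mem_centralizer_singleton_iff]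
    refine (CD.comm_of h hx ?_).symm
    rw [ha, Matrix.smul_mul, Matrix.mul_smul, Matrix.one_mul, Matrix.mul_one]
  rw [CD.gen_top h] at this
  exact (mem_centralizer_singleton_iff.1 (this (mem_top g))).symm

lemma cv_pp (C : Cv p T) {z : C.E} (hz : C.θ z = 1) (hp : z ^ p = 1) : z = 1 := by
  have h := C.kind.cd
  obtain ⟨a, ha⟩ := (C.ker z).1 hz
  have h1 : a ^ p ^ 1 = 1 := by
    have h2 := congrFun (congrFun (congrArg C.D.ρ hp) C.D.z) C.D.z
    rw [map_pow, ha, smul_pow, one_pow, map_one, Matrix.smul_apply, one_apply_eq, smul_eq_mul,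
      mul_one] at h2
    rw [pow_one, h2]
  refine h.pinj z 1 ⟨1, by rw [pow_one, hp]⟩ (Def.IsP.one p) ?_
  rw [ha, CD.eq_one_of_pow h h1, one_smul, map_one]

/-- the pull-back of a cover -/
noncomputable def cvPull (C : Cv p T) (hm : 5 ≤ C.D.m) {E : Type} [Group E] [Finite E]
    {π : E →* C.E} (c : CP p π) (hE : closure {e : E | IsP p e} = ⊤) : Cv p T where
  E := E
  R := C.R
  F0 := C.F0
  d := C.d
  D := pull C.D p π
  kind := kind_pull c hE C.finR C.kind hm
  θ := C.θ.comp π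
  range := by
    rw [MonoidHom.range_comp, MonoidHom.range_eq_top.2 c.surj, ← MonoidHom.range_eq_map, C.range]
  ker g := C.ker (π g)

lemma cvPull_full (C : Cv p T) (hm : 5 ≤ C.D.m) {E : Type} [Group E] [Finite E]
    {π : E →* C.E} (c : CP p π) (hE : closure {e : E | IsP p e} = ⊤) {X : Subgroup G}
    (hX : C.Full X) : (cvPull C hm c hE).Full X := by
  have h1 : (⁅X.comap C.θ, X.comap C.θ⁆ : Subgroup C.E) =
      (⁅X.comap (C.θ.comp π), X.comap (C.θ.comp π)⁆ : Subgroup E).map π := by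
    rw [map_commutator, ← comap_comap, map_comap_eq_self_of_surjective c.surj]
  unfold Cv.Full at hX
  rw [h1, coe_map, Set.image_image] at hX
  exact hX

lemma cvPull_end (C' : Cv p T') (C : Cv p T) (hm' : 5 ≤ C'.D.m) (hm : 5 ≤ C.D.m)
    {E' E : Type} [Group E'] [Finite E'] [Group E] [Finite E] {π' : E' →* C'.E} {π : E →* C.E}
    (c' : CP p π') (c : CP p π) (hE' : closure {e : E' | IsP p e} = ⊤)
    (hE : closure {e : E | IsP p e} = ⊤) :
    (cvPull C' hm' c' hE').End (cvPull C hm c hE) ↔ C'.End C := by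
  haveI : Fact p.Prime := ⟨CD.prime C.kind.cd⟩
  have hU := (CD.sb C.kind.cd).pgroup
  have hU' := (CD.sb C'.kind.cd).pgroup
  constructor
  · rintro ⟨g : E, h1, h2⟩
    refine ⟨π g, fun u hu y hy hyu => ?_, fun i hi hi0 hl y hy => ?_⟩
    · obtain ⟨u, hu', rfl⟩ := c'.exists_liftS hU' hu
      obtain ⟨y, rfl, hy'⟩ := c.exists_lift hy
      have : π (g⁻¹ * y * g) ∈ C.D.U := ((c.mem_liftS hU).1 (h1 u hu' y hy' hyu)).1
      rwa [map_mul, map_mul, map_inv] at this
    · obtain ⟨y, rfl⟩ := c.surj y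
      exact h2 i hi hi0 hl y (hy.trans (congrArg C'.θ (pull_nd c' i).symm))
  · rintro ⟨g, h1, h2⟩
    obtain ⟨g, rfl⟩ := c.surj g
    refine ⟨g, fun (u : E') hu (y : E) hy hyu => (c.mem_liftS hU (e := g⁻¹ * y * g)).2 ⟨?_, ?_⟩,
      fun i hi hi0 hl (y : E) hy => ?_⟩
    · rw [map_mul, map_mul, map_inv]
      exact h1 _ ((c'.mem_liftS hU').1 hu).1 (π y) (Def.IsP.map hy π) hyu
    · have : Def.IsP p (g⁻¹ * y * g⁻¹⁻¹) := Def.IsP.conj hy g⁻¹
      rwa [inv_inv] at this
    · exact h2 i hi hi0 hl (π y) (hy.trans (congrArg C'.θ (pull_nd c' i)))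

section Tower
variable {ι : Type} {T : ι → Subgroup G} (C : ∀ i, Cv p (T i))

/-- compatible families -/
def towW (i : ι) : Subgroup (∀ j, (C j).E) where
  carrier := {g | ∀ j, (T i ≤ T j → (C j).θ (g j) = (C i).θ (g i)) ∧ (¬ T i ≤ T j → g j = 1)}
  one_mem' j := ⟨fun _ => by simp, fun _ => rfl⟩
  mul_mem' {a b} ha hb j := ⟨fun h => by
    rw [Pi.mul_apply, Pi.mul_apply, map_mul, map_mul, (ha j).1 h, (hb j).1 h], fun h => by
    rw [Pi.mul_apply, (ha j).2 h, (hb j).2 h, mul_one]⟩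
  inv_mem' {a} ha j := ⟨fun h => by
    rw [Pi.inv_apply, Pi.inv_apply, map_inv, map_inv, (ha j).1 h], fun h => by
    rw [Pi.inv_apply, (ha j).2 h, inv_one]⟩

/-- the covers of the tower -/
def towE (i : ι) : Subgroup (∀ j, (C j).E) := closure {w | w ∈ towW C i ∧ IsP p w}

/-- the projection -/
def towπ (i : ι) (M : Subgroup (∀ j, (C j).E)) : M →* (C i).E :=
  (Pi.evalMonoidHom (fun j => (C j).E) i).comp M.subtype

open Classical in
/-- killing coordinates -/
noncomputable def towR (j : ι) : (∀ l, (C l).E) →* ∀ l, (C l).E :=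
  MonoidHom.pi fun l => if T j ≤ T l then Pi.evalMonoidHom (fun l => (C l).E) l else 1

lemma towR_pos {j l : ι} (h : T j ≤ T l) (g : ∀ l, (C l).E) : towR C j g l = g l := by
  unfold towR
  rw [MonoidHom.pi_apply, if_pos h]
  rfl

lemma towR_neg {j l : ι} (h : ¬ T j ≤ T l) (g : ∀ l, (C l).E) : towR C j g l = 1 := by
  unfold towR
  rw [MonoidHom.pi_apply, if_neg h]
  rfl

lemma towE_le (i : ι) : towE C i ≤ towW C i := (closure_le _).2 fun _ hw => hw.1

lemma tow_cp (i : ι) {M : Subgroup (∀ j, (C j).E)} (hM : M ≤ towW C i)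
    (hs : Function.Surjective (towπ C i M)) : CP p (towπ C i M) := by
  have hk : ∀ z : M, towπ C i M z = 1 → ∀ j, (C j).θ (z.1 j) = 1 := fun z hz j => by
    by_cases h : T i ≤ T j
    · rw [(hM z.2 j).1 h, show z.1 i = 1 from hz, map_one]
    · rw [(hM z.2 j).2 h, map_one]
  exact ⟨hs, fun z hz g => Subtype.ext (funext fun j => cv_central (C j) (hk z hz j) _),
    fun z hz h1 => Subtype.ext (funext fun j => cv_pp (C j) (hk z hz j)
      (congrFun (congrArg Subtype.val h1) j))⟩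

lemma towW_surj (i : ι) : Function.Surjective (towπ C i (towW C i)) := by
  classical
  intro e
  have h1 : ∀ j, ∃ x : (C j).E, (T i ≤ T j → (C j).θ x = (C i).θ e) ∧ (¬ T i ≤ T j → x = 1) := by
    intro j
    by_cases h : T i ≤ T j
    · have h2 : (C i).θ e ∈ (C j).θ.range := by
        rw [(C j).range]
        exact h ((C i).range.le ⟨e, rfl⟩)
      obtain ⟨x, hx⟩ := h2
      exact ⟨x, fun _ => hx, fun h' => absurd h h'⟩
    · exact ⟨1, fun h' => absurd h' h, fun _ => rfl⟩
  choose x hx using h1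
  refine ⟨⟨Function.update x i e, fun j => ?_⟩, (Function.update_self i e x :)⟩
  rw [Function.update_self]
  by_cases hj : j = i
  · subst hj
    rw [Function.update_self]
    exact ⟨fun _ => rfl, fun h => absurd le_rfl h⟩
  · rw [Function.update_of_ne hj]
    exact hx j

lemma towE_cp [Finite ι] (i : ι) : CP p (towπ C i (towE C i)) := by
  haveI : Fact p.Prime := ⟨CD.prime (C i).kind.cd⟩
  refine tow_cp C i (towE_le C i) ?_
  rw [← MonoidHom.range_eq_top, eq_top_iff, ← CD.gen_top (C i).kind.cd, closure_le]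
  intro g hg
  obtain ⟨e, he, he'⟩ := (tow_cp C i le_rfl (towW_surj C i)).exists_lift hg
  exact ⟨⟨e, subset_closure ⟨e.2, Def.IsP.map he' (towW C i).subtype⟩⟩, he⟩

lemma towE_gen (i : ι) : closure {e : towE C i | IsP p e} = ⊤ := by
  refine eq_top_iff.2 ((closure_closure_coe_preimage (k := {w | w ∈ towW C i ∧ IsP p w})).ge.trans
    (closure_mono ?_))
  rintro w ⟨-, k, hk⟩
  exact ⟨k, Subtype.ext hk⟩

lemma towR_mem {i j : ι} (h : T i ≤ T j) {g : ∀ l, (C l).E} (hg : g ∈ towE C i) :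
    towR C j g ∈ towE C j := by
  refine ((closure_le ((towE C j).comap (towR C j))).2 ?_) hg
  rintro w ⟨hw, hw'⟩
  refine subset_closure ⟨fun l => ⟨fun hl => ?_, fun hl => towR_neg C hl w⟩, Def.IsP.map hw' _⟩
  rw [towR_pos C hl, towR_pos C le_rfl, (hw l).1 (h.trans hl), (hw j).1 h]

end Tower

theorem tow : TOW := by
  intro p G _ ι _ T C hm
  refine ⟨fun i => cvPull (C i) (hm i) (towE_cp C i) (towE_gen C i), fun i j h => ?_,
    fun i => ⟨rfl, fun t ht => ht, fun X hX => cvPull_full _ _ _ _ hX, fun hL g hg => ?_⟩,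
    fun i j => cvPull_end _ _ _ _ _ _ _ _⟩
  · refine ⟨((towR C j).comp (towE C i).subtype).codRestrict (towE C j)
      fun g => towR_mem C h g.2, fun g => ?_⟩
    show (C j).θ (towR C j g.1 j) = (C i).θ (g.1 i)
    rw [towR_pos C le_rfl, (towE_le C i g.2 j).1 h]
  · obtain ⟨φ, P, P', h1, h2, h3, h4⟩ := hL g hg
    exact ⟨φ, P, P', h1, h2, h3, fun ω ω' h5 => h4 _ _ h5⟩

end Vale.Agent.P183K.Lift
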