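import Vale.Agent.P183M.CD
import Vale.Agent.P183CR.Abs
import Vale.Agent.P183K.Def.Node

/-!
# P183K: basic facts on classical data (helper2)
-/

set_option autoImplicit false
set_option linter.all false

namespace Vale.Agent.P183K.Lift

open Matrix Subgroup Vale.Agent.P240.H195 Vale.Agent.P183CR Vale.Agent.P183M

universe u

variable {G : Type u} [Group G] {R F0 : Type} [CommRing R] [Field F0] {d : ℕ}

lemma ee_apply (a b : Fin d) : (ee a : Fin d → R) b = if b = a then 1 else 0 := by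
  unfold ee
  rw [Pi.single_apply]

lemma ee_self (a : Fin d) : (ee a : Fin d → R) a = 1 := by rw [ee_apply, if_pos rfl]

lemma ee_ne {a b : Fin d} (h : b ≠ a) : (ee a : Fin d → R) b = 0 := by rw [ee_apply, if_neg h]

lemma mulVec_ee (M : Matrix (Fin d) (Fin d) R) (a i : Fin d) : (M *ᵥ ee a) i = M i a := by
  unfold ee
  rw [mulVec_single_one]
  rfl

lemma map_ee {K : Type} [CommRing K] (θ : R →+* K) (a : Fin d) :
    (θ ∘ (ee a : Fin d → R)) = ee a := by
  funext b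
  simp only [Function.comp, ee_apply]
  split_ifs <;> simp

lemma ext_ee {M M' : Matrix (Fin d) (Fin d) R} (h : ∀ a, M *ᵥ ee a = M' *ᵥ ee a) : M = M' := by
  ext i a
  rw [← mulVec_ee M, h, mulVec_ee]

lemma entry_of_ee {M : Matrix (Fin d) (Fin d) R} {a b : Fin d} {c : R}
    (h : M *ᵥ ee a = c • ee b) (i : Fin d) : M i a = if i = b then c else 0 := by
  rw [← mulVec_ee M, h, Pi.smul_apply, ee_apply]
  split_ifs <;> simp

lemma ee_smul_inj [Nontrivial R] {a b : Fin d} {c : R} {u : Rˣ}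
    (h : (u : R) • (ee a : Fin d → R) = c • ee b) : a = b := by
  by_contra hne
  have := congrFun h a
  rw [Pi.smul_apply, Pi.smul_apply, ee_self, ee_ne hne, smul_zero, smul_eq_mul, mul_one] at this
  exact u.ne_zero this

lemma rho_mulVec (τ : G →* Matrix (Fin d) (Fin d) R) (a b : G) (x : Fin d → R) :
    τ (a * b) *ᵥ x = τ a *ᵥ (τ b *ᵥ x) := by rw [map_mul, mulVec_mulVec]

lemma rho_inv_mulVec (τ : G →* Matrix (Fin d) (Fin d) R) (a : G) (x : Fin d → R) :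
    τ a⁻¹ *ᵥ (τ a *ᵥ x) = x := by rw [← rho_mulVec, inv_mul_cancel, map_one, one_mulVec]

lemma rho_mulVec_inv (τ : G →* Matrix (Fin d) (Fin d) R) (a : G) (x : Fin d → R) :
    τ a *ᵥ (τ a⁻¹ *ᵥ x) = x := by rw [← rho_mulVec, mul_inv_cancel, map_one, one_mulVec]

lemma mem_LS {τ : G →* Matrix (Fin d) (Fin d) R} {v : Fin d → R} {g : G} :
    g ∈ LS τ v ↔ ∃ c : Rˣ, τ g *ᵥ v = (c : R) • v := Iff.rfl

lemma LS_le_smul (τ : G →* Matrix (Fin d) (Fin d) R) (v : Fin d → R) (ε : R) :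
    LS τ v ≤ LS τ (ε • v) := by
  rintro g ⟨c, hc⟩
  exact ⟨c, by rw [mulVec_smul, hc, smul_comm]⟩

lemma inv_mul_mem_LS {τ : G →* Matrix (Fin d) (Fin d) R} {v : Fin d → R} {a b : G} {c : Rˣ}
    (h : τ b *ᵥ v = (c : R) • (τ a *ᵥ v)) : a⁻¹ * b ∈ LS τ v :=
  ⟨c, by rw [rho_mulVec, h, mulVec_smul, rho_inv_mulVec]⟩

lemma Ut.fix {M : Matrix (Fin d) (Fin d) R} (h : Ut M) {z : Fin d} (hz : z.val = 0) :
    M *ᵥ ee z = ee z := by
  funext i
  rw [mulVec_ee, ee_apply]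
  split_ifs with hi
  · rw [hi, h.2]
  · exact h.1 i z (by rw [Fin.lt_def, hz]; exact Nat.pos_of_ne_zero fun h0 => hi (Fin.ext (h0.trans hz.symm)))

lemma eq_of_gen {B N : Subgroup G} {S : Set G} (h : BN B N S) {P Q : Subgroup G} (hP : B ≤ P)
    (hQ : B ≤ Q) (hS : ∀ s ∈ S, s ∈ P ↔ s ∈ Q) : P = Q := by
  rw [← h.toBN0.closure_eq_of h.bruhat hP, ← h.toBN0.closure_eq_of h.bruhat hQ]
  congr 2
  ext s
  exact ⟨fun hs => ⟨hs.1, (hS s hs.1).1 hs.2⟩, fun hs => ⟨hs.1, (hS s hs.1).2 hs.2⟩⟩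

section beta
variable (D : Dat G R F0 d)

lemma β_eq (x y : Fin d → R) : D.β x y = ∑ a, D.σ (x a) * (D.J *ᵥ y) a := rfl

lemma β_smul (x y : Fin d → R) (c : R) : D.β x (c • y) = c * D.β x y := by
  unfold Dat.β
  rw [mulVec_smul, dotProduct_smul, smul_eq_mul]

lemma β_add (x y y' : Fin d → R) : D.β x (y + y') = D.β x y + D.β x y' := by
  unfold Dat.β
  rw [mulVec_add, dotProduct_add]

lemma smul_β (x y : Fin d → R) (c : R) : D.β (c • x) y = D.σ c * D.β x y := by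
  rw [β_eq, β_eq, Finset.mul_sum]
  refine Finset.sum_congr rfl fun a _ => ?_
  rw [Pi.smul_apply, smul_eq_mul, map_mul, mul_assoc]

lemma add_β (x x' y : Fin d → R) : D.β (x + x') y = D.β x y + D.β x' y := by
  rw [β_eq, β_eq, β_eq, ← Finset.sum_add_distrib]
  refine Finset.sum_congr rfl fun a _ => ?_
  rw [Pi.add_apply, map_add, add_mul]

lemma β_zero (x : Fin d → R) : D.β x 0 = 0 := by
  unfold Dat.β
  rw [mulVec_zero, dotProduct_zero]

lemma zero_β (x : Fin d → R) : D.β 0 x = 0 := by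
  rw [β_eq]
  simp

lemma ee_β (a : Fin d) (y : Fin d → R) : D.β (ee a) y = (D.J *ᵥ y) a := by
  rw [β_eq, Finset.sum_eq_single a, ee_self, map_one, one_mul]
  · intro b _ hb
    rw [ee_ne hb, map_zero, zero_mul]
  · intro h
    exact absurd (Finset.mem_univ a) h

lemma ee_β_ee (a b : Fin d) : D.β (ee a) (ee b) = D.J a b := by rw [ee_β, mulVec_ee]

end beta

namespace CD
variable {p : ℕ} {D : Dat G R F0 d} (h : CD p D)
include h

lemma sb : SB p D.B D.N D.U D.S := h.sba.toSBP.toSB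

lemma prime : p.Prime := h.sba.prime

lemma isP {u : G} (hu : u ∈ D.U) : IsP p u := (sb h).exists_pow hu

lemma U_fix {u : G} (hu : u ∈ D.U) : D.ρ u *ᵥ ee D.z = ee D.z := Ut.fix (h.up u hu).1 h.z0

lemma β_U {u : G} (hu : u ∈ D.U) (y : Fin d → R) :
    D.β (ee D.z) (D.ρ u *ᵥ y) = D.β (ee D.z) y := by
  have := h.inv u (ee D.z) y
  rwa [U_fix h hu] at this

lemma nd_mem {i : ℕ} (hi : i < D.rk) : D.nd i ∈ D.S := ⟨i, hi, rfl⟩

lemma nd_N {i : ℕ} (hi : i < D.rk) : D.nd i ∈ D.N := (sb h).sub _ (nd_mem h hi)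

lemma n0_N : D.n0 ∈ D.N := h.long.1

lemma not_mid {a : Fin d} (ha : a.val < D.m) : ¬ D.Mid a := fun h1 => by
  have := h1.1
  omega

lemma mid_rev {a : Fin d} : D.Mid a.rev ↔ D.Mid a := by
  unfold Dat.Mid
  rw [Fin.rev_rev, and_comm]

/-- `G` is generated by `p`-elements -/
lemma gen_top : closure {g : G | IsP p g} = ⊤ := by
  rw [eq_top_iff, ← h.x_gen]
  haveI : (closure {g : G | IsP p g}).Normal := ⟨fun a ha g =>
    Def.conj_closure (fun x hx => subset_closure (Def.IsP.conj hx g)) ha⟩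
  refine normalClosure_le_normal ?_
  rintro _ ⟨t, rfl⟩
  exact subset_closure (isP h (h.x_mem t))

lemma normalClosure_U : normalClosure (D.U : Set G) = ⊤ := by
  rw [eq_top_iff, ← h.x_gen]
  refine normalClosure_mono ?_
  rintro _ ⟨t, rfl⟩
  exact h.x_mem t

/-- `p`-elements commute if their images do -/
lemma comm_of {a g : G} (ha : IsP p a) (hc : D.ρ g * D.ρ a = D.ρ a * D.ρ g) : g * a = a * g := by
  have : g * a * g⁻¹ = a := by
    refine h.pinj _ _ (Def.IsP.conj ha g) ha ?_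
    rw [map_mul, map_mul, hc, mul_assoc, ← map_mul, mul_inv_cancel, map_one, mul_one]
  exact mul_inv_eq_iff_eq_mul.1 this

lemma eq_one_of_pow {r : R} {k : ℕ} (hr : r ^ p ^ k = 1) : r = 1 := by
  haveI := h.char
  haveI := h.red
  haveI : Fact p.Prime := ⟨prime h⟩
  have h1 : (r - 1) ^ p ^ k = 0 := by rw [sub_pow_char_pow, one_pow, hr, sub_self]
  exact sub_eq_zero.1 (IsReduced.eq_zero _ ⟨_, h1⟩)

lemma det_one (g : G) : (D.ρ g).det = 1 := by
  have : (⊤ : Subgroup G) ≤ ((detMonoidHom.comp D.ρ).toHomUnits).ker := by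
    rw [← gen_top h, closure_le]
    rintro a ⟨k, hk⟩
    rw [SetLike.mem_coe, MonoidHom.mem_ker]
    ext
    refine eq_one_of_pow h (k := k) ?_
    show ((D.ρ a).det) ^ p ^ k = 1
    rw [← det_pow, ← map_pow, hk, map_one, Matrix.det_one]
  exact congrArg Units.val (this (mem_top g))

end CD

/-! ### linear groups -/

section L
variable {F : Type} [Field F]

/-- the action on the dual module -/
def ρ2 (D : Dat G (F × F) F0 d) : G →* Matrix (Fin d) (Fin d) F := tw (RingHom.snd F F) D.ρ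

lemma ρ1_apply (D : Dat G (F × F) F0 d) (g : G) (i j : Fin d) : D.ρ1 g i j = (D.ρ g i j).1 := rfl

lemma ρ2_apply (D : Dat G (F × F) F0 d) (g : G) (i j : Fin d) : ρ2 D g i j = (D.ρ g i j).2 := rfl

lemma fst_mulVec (D : Dat G (F × F) F0 d) (g : G) (x : Fin d → F × F) (i : Fin d) :
    ((D.ρ g *ᵥ x) i).1 = (D.ρ1 g *ᵥ fun a => (x a).1) i :=
  RingHom.map_mulVec (RingHom.fst F F) (D.ρ g) x i

lemma snd_mulVec (D : Dat G (F × F) F0 d) (g : G) (x : Fin d → F × F) (i : Fin d) :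
    ((D.ρ g *ᵥ x) i).2 = (ρ2 D g *ᵥ fun a => (x a).2) i :=
  RingHom.map_mulVec (RingHom.snd F F) (D.ρ g) x i

namespace CDL
variable {p : ℕ} {D : Dat G (F × F) F0 d} (h : CDL p D)
include h

lemma d_le : d ≤ 2 * D.m + 1 := h.d_le' ⟨(1, 0), by rw [h.swap]; simp⟩

lemma J_ne {a b : Fin d} (hab : b ≠ a.rev) : D.J a b = 0 := by
  refine h.J_zero a b hab fun h1 => hab (Fin.ext ?_)
  have h2 := d_le h
  obtain ⟨⟨h3, h4⟩, h5, h6⟩ := h1
  rw [Fin.val_rev] at h4 h6 ⊢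
  omega

lemma J_unit' (a : Fin d) : IsUnit (D.J a a.rev) := by
  have h1 := congrFun (congrFun (mul_nonsing_inv D.J h.nondeg) a) a
  rw [mul_apply, Finset.sum_eq_single a.rev, one_apply_eq] at h1
  · exact IsUnit.of_mul_eq_one _ h1
  · intro b _ hb
    rw [J_ne h hb, zero_mul]
  · intro h2
    exact absurd (Finset.mem_univ _) h2

lemma J1_ne (a : Fin d) : (D.J a a.rev).1 ≠ 0 := ((J_unit' h a).map (RingHom.fst F F)).ne_zero

lemma J2_ne (a : Fin d) : (D.J a a.rev).2 ≠ 0 := ((J_unit' h a).map (RingHom.snd F F)).ne_zero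

lemma J_mulVec (y : Fin d → F × F) (a : Fin d) : (D.J *ᵥ y) a = D.J a a.rev * y a.rev := by
  rw [mulVec, dotProduct, Finset.sum_eq_single a.rev]
  · intro b _ hb
    rw [J_ne h hb, zero_mul]
  · intro h2
    exact absurd (Finset.mem_univ _) h2

lemma β_snd (x y : Fin d → F × F) :
    (D.β x y).2 = ∑ a, (x a).1 * ((D.J a a.rev).2 * (y a.rev).2) := by
  rw [β_eq, Prod.snd_sum]
  refine Finset.sum_congr rfl fun a _ => ?_
  rw [J_mulVec h, h.swap]
  rfl

/-- the invariant pairing of the two components -/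
lemma inv12 (g : G) (a b : Fin d) :
    ∑ i, D.ρ1 g i a * ((D.J i i.rev).2 * ρ2 D g i.rev b) = (D.J a b).2 := by
  have h1 := congrArg Prod.snd (h.inv g (ee a) (ee b))
  rw [ee_β_ee, β_snd h] at h1
  rw [← h1]
  refine Finset.sum_congr rfl fun i _ => ?_
  rw [mulVec_ee, mulVec_ee]
  rfl

lemma ρ2_eq {g g' : G} (hg : D.ρ1 g = D.ρ1 g') : ρ2 D g = ρ2 D g' := by
  have h1 : ∀ g : G, (D.ρ1 g)ᵀ * (of fun i b => (D.J i i.rev).2 * ρ2 D g i.rev b) =
      of fun a b => (D.J a b).2 := by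
    intro g
    ext a b
    rw [mul_apply, of_apply, ← inv12 h g a b]
    rfl
  have h2 := (h1 g).trans (h1 g').symm
  rw [hg] at h2
  have h3 : (D.ρ1 g'⁻¹)ᵀ * (D.ρ1 g')ᵀ = 1 := by
    rw [← transpose_mul, ← map_mul, mul_inv_cancel, map_one, transpose_one]
  have h4 := congrArg (fun M => (D.ρ1 g'⁻¹)ᵀ * M) h2
  simp only [← Matrix.mul_assoc, h3, Matrix.one_mul] at h4
  ext i b
  have h5 := congrFun (congrFun h4 i.rev) b
  simp only [of_apply, Fin.rev_rev] at h5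
  have h6 := J2_ne h i.rev
  rw [Fin.rev_rev] at h6
  exact mul_left_cancel₀ h6 h5

lemma ρ_eq {g g' : G} (hg : D.ρ1 g = D.ρ1 g') : D.ρ g = D.ρ g' := by
  have h2 := ρ2_eq h hg
  ext i j
  · exact congrFun (congrFun hg i) j
  · exact congrFun (congrFun h2 i) j

lemma pinj1 {a b : G} (ha : IsP p a) (hb : IsP p b) (hab : D.ρ1 a = D.ρ1 b) : a = b :=
  h.pinj a b ha hb (ρ_eq h hab)

/-- monomial elements act monomially on the dual module -/
lemma mon2 {n : G} {w : Equiv.Perm (Fin d)} (hn : Mon1 (D.ρ1 n) w) (a : Fin d) :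
    ∃ c : Fˣ, ρ2 D n *ᵥ ee a = (c : F) • ee (w a.rev).rev ∧
      D.ρ1 n (w a.rev) a.rev * ((D.J (w a.rev) (w a.rev).rev).2 * c) = (D.J a.rev a).2 := by
  have key : ∀ b, D.ρ1 n (w b) b * ((D.J (w b) (w b).rev).2 * ρ2 D n (w b).rev a) = (D.J b a).2 := by
    intro b
    obtain ⟨c, hc⟩ := hn b
    rw [← inv12 h n b a, Finset.sum_eq_single (w b)]
    · intro i _ hi
      rw [entry_of_ee hc, if_neg hi, zero_mul]
    · intro h2
      exact absurd (Finset.mem_univ _) h2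
  have h0 : ρ2 D n (w a.rev).rev a ≠ 0 := by
    intro h1
    have h2 := key a.rev
    have h3 := J2_ne h a.rev
    rw [Fin.rev_rev] at h3
    rw [h1, mul_zero, mul_zero] at h2
    exact h3 h2.symm
  refine ⟨Units.mk0 _ h0, funext fun i => ?_, key a.rev⟩
  rw [mulVec_ee, Pi.smul_apply, ee_apply, smul_eq_mul]
  split_ifs with hi
  · rw [hi, mul_one]; rfl
  · rw [mul_zero]
    have h2 := key (w.symm i.rev)
    obtain ⟨c, hc⟩ := hn (w.symm i.rev)
    rw [entry_of_ee hc, if_pos rfl, Equiv.apply_symm_apply, Fin.rev_rev, J_ne h (b := a)] at h2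
    · have h3 := J2_ne h i.rev
      rw [Fin.rev_rev] at h3
      exact (mul_eq_zero.1 ((mul_eq_zero.1 h2).resolve_left c.ne_zero)).resolve_left h3
    · intro h3
      apply hi
      rw [h3, Fin.rev_rev, Equiv.apply_symm_apply, Fin.rev_rev]

lemma Ut1 {u : G} (hu : u ∈ D.U) : Ut (D.ρ1 u) :=
  ⟨fun i j hij => by rw [ρ1_apply, (h.up u hu).1.1 i j hij]; rfl,
    fun i => by rw [ρ1_apply, (h.up u hu).1.2 i]; rfl⟩

end CDL

lemma mem_LS_prod {D : Dat G (F × F) F0 d} {g : G} {a : Fin d} {ε : F × F} {x y : Fin d → F}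
    {c c' : Fˣ} {v : Fin d → F × F} (hx : ∀ i, (v i).1 = x i) (hy : ∀ i, (v i).2 = y i)
    (h1 : ε.1 • (D.ρ1 g *ᵥ ee a) = (c : F) • ε.1 • x)
    (h2 : ε.2 • (ρ2 D g *ᵥ ee a) = (c' : F) • ε.2 • y) :
    ∃ e : (F × F)ˣ, D.ρ g *ᵥ (ε • ee a) = (e : F × F) • ε • v := by
  refine ⟨MulEquiv.prodUnits.symm (c, c'), funext fun i => Prod.ext ?_ ?_⟩
  · have := congrFun h1 i
    simp only [Pi.smul_apply, smul_eq_mul, mulVec_ee] at this
    rw [mulVec_smul, Pi.smul_apply, mulVec_ee, smul_eq_mul, Prod.fst_mul, ← ρ1_apply, this,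
      ← hx]
    rfl
  · have := congrFun h2 i
    simp only [Pi.smul_apply, smul_eq_mul, mulVec_ee] at this
    rw [mulVec_smul, Pi.smul_apply, mulVec_ee, smul_eq_mul, Prod.snd_mul, ← ρ2_apply, this,
      ← hy]
    rfl

end L

end Vale.Agent.P183K.Lift
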