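import Vale.Agent.P183K.Lift.NodeF

/-!
# P183K: the last node of symplectic, unitary and orthogonal groups (helper2)
-/

set_option autoImplicit false
set_option linter.all false

namespace Vale.Agent.P183K.Lift

open Matrix Subgroup Vale.Agent.P240.H195 Vale.Agent.P183CR Vale.Agent.P183M
open Vale.Agent.P183K.Def (St stW stH Node Ms CP liftS liftE)

universe u

variable {G : Type u} [Group G] {F0 : Type} [Field F0] {d : ℕ}
variable {F : Type} [Field F] {p : ℕ} {D : Dat G F F0 d}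

lemma two_scalar {M : Matrix (Fin 2) (Fin 2) F} (hdet : M.det = 1) {v : Fin 2 → F} (hv : v ≠ 0)
    {μ : F} (hμ : M *ᵥ v = μ • v) (hμ2 : μ * μ = 1) {n : ℕ} (hn : M ^ n = 1) (hn0 : (n : F) ≠ 0) :
    M = μ • 1 := by
  set N := M - μ • (1 : Matrix (Fin 2) (Fin 2) F) with hN
  have hNv : N *ᵥ v = 0 := by rw [hN, sub_mulVec, smul_mulVec, one_mulVec, hμ, sub_self]
  have hNdet : N.det = 0 := (exists_mulVec_eq_zero_iff.1 ⟨v, hv, hNv⟩)
  have htr : M 0 0 + M 1 1 = 2 * μ := by
    rw [det_fin_two] at hdet hNdet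
    simp only [hN, Matrix.sub_apply, Matrix.smul_apply, one_apply_eq, smul_eq_mul, mul_one,
      ne_eq, zero_ne_one, not_false_eq_true, one_apply_ne, one_ne_zero, mul_zero, sub_zero] at hNdet
    linear_combination (-μ) * hNdet + μ * hdet - (M 0 0 + M 1 1 - μ) * hμ2
  have hNN : N * N = 0 := by
    rw [det_fin_two] at hdet
    ext i j
    fin_cases i <;> fin_cases j <;>
      simp [hN, mul_apply, Fin.sum_univ_two, one_apply]
    · linear_combination (M 0 0) * htr - hdet + hμ2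
    · linear_combination (M 0 1) * htr
    · linear_combination (M 1 0) * htr
    · linear_combination (M 1 1) * htr - hdet + hμ2
  have hM : M = μ • 1 + N := by rw [hN]; abel
  have hpow : ∀ k : ℕ, M ^ (k + 1) = μ ^ (k + 1) • 1 + (((k + 1 : ℕ) : F) * μ ^ k) • N := by
    intro k
    induction k with
    | zero => simp [← hM]
    | succ k ih =>
      rw [pow_succ, ih]
      conv_lhs => rw [hM]
      rw [add_mul, mul_add, mul_add, smul_mul_smul_comm, smul_mul_assoc, smul_mul_smul_comm,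
        smul_mul_assoc, hNN, smul_zero, add_zero, one_mul, one_mul, mul_one, add_assoc, ← add_smul]
      rw [← pow_succ]
      congr 2
      push_cast
      ring
  obtain ⟨k, rfl⟩ : ∃ k, n = k + 1 := ⟨n - 1, by
    have : n ≠ 0 := by rintro rfl; exact hn0 Nat.cast_zero
    omega⟩
  have h1 := hpow k
  rw [hn] at h1
  have h2 : μ ^ (k + 1) = 1 := by
    have h3 := congrArg (fun A => A *ᵥ v) h1
    simp only [add_mulVec, smul_mulVec, one_mulVec, hNv, smul_zero, add_zero] at h3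
    exact (smul_left_injective F hv (h3.symm.trans (one_smul F v).symm))
  rw [h2, one_smul, left_eq_add] at h1
  have hμ0 : μ ≠ 0 := left_ne_zero_of_mul_eq_one hμ2
  have h4 : N = 0 := (smul_eq_zero.1 h1).resolve_left (mul_ne_zero hn0 (pow_ne_zero _ hμ0))
  rw [hM, h4, add_zero]

/-- the diagonal entry as a homomorphism -/
def diagHom {T : Subgroup G} (μ : G →* Matrix (Fin d) (Fin d) F) (a : Fin d)
    (H : ∀ τ ∈ T, μ τ *ᵥ ee a = μ τ a a • ee a) : T →* F where
  toFun τ := μ τ a a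
  map_one' := by simp
  map_mul' τ τ' := by
    show μ (τ * τ') a a = _
    rw [← mulVec_ee (μ _), rho_mulVec, H _ τ'.2, mulVec_smul, Pi.smul_apply, mulVec_ee, smul_eq_mul,
      mul_comm]

/-- the indices of the last node -/
def Blk (D : Dat G F F0 d) (a j : Fin d) : Prop := j = a ∨ D.Mid j ∨ j = a.rev

/-- acts as a scalar on the block of the last node -/
def Sc (D : Dat G F F0 d) (a : Fin d) (τ : G) : Prop :=
  ∃ l : F, ∀ j, Blk D a j → D.ρ τ *ᵥ ee j = l • ee j

namespace CDF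
variable (h : CDF p D)
include h

lemma T_ee {τ : G} (hτ : τ ∈ D.B ⊓ D.N) {a : Fin d} (ha : ¬ D.Mid a) :
    D.ρ τ *ᵥ ee a = D.ρ τ a a • ee a := by
  obtain ⟨c, hc⟩ := (h.mon_T τ hτ.1 hτ.2).2.1 a ha
  rw [entry_of_ee hc, if_pos (by rfl)]
  exact hc

lemma T_rev {τ : G} (hτ : τ ∈ D.B ⊓ D.N) {a : Fin d} (ha : ¬ D.Mid a) :
    D.σ (D.ρ τ a a) * D.ρ τ a.rev a.rev = 1 := by
  have h1 := h.inv τ (ee a) (ee a.rev)
  rw [T_ee h hτ ha, T_ee h hτ (fun h2 => ha ((CD.mid_rev h.toCD).1 h2)), smul_β, β_smul, ee_β_ee,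
    ← mul_assoc] at h1
  exact mul_right_cancel₀ (h.J_unit a ha).ne_zero (h1.trans (one_mul _).symm)

lemma β_low {y y' : Fin d → F} (hy : ∀ a : Fin d, ¬ a.val < D.m → y a = 0)
    (hy' : ∀ a : Fin d, ¬ (a.val < D.m ∨ D.Mid a) → y' a = 0) : D.β y y' = 0 := by
  rw [β_eq]
  refine Finset.sum_eq_zero fun a _ => ?_
  by_cases ha : a.val < D.m
  · rw [J_mulVec h.toCD (CD.not_mid h.toCD ha), hy', mul_zero, mul_zero]
    have := h.le_d
    unfold Dat.Mid
    simp only [Fin.val_rev]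
    omega
  · rw [hy a ha, map_zero, zero_mul]

lemma β_symm_zero {x y : Fin d → F} (hxy : D.β x y = 0) : D.β y x = 0 := by
  obtain ⟨ε, -, hε⟩ := h.eps
  rw [hε, hxy, map_zero, mul_zero]

lemma sing_low {y : Fin d → F} (hy : ∀ a : Fin d, ¬ a.val < D.m → y a = 0) : D.sing y := by
  classical
  have key : ∀ s : Finset (Fin d), D.sing (∑ a ∈ s, y a • ee a) := by
    intro s
    induction s using Finset.induction_on with
    | empty =>
      rw [Finset.sum_empty, ← zero_smul F (D.ρ 1 *ᵥ ee D.z)]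
      obtain ⟨i, hi, -⟩ := (CD.sb h.toCD).nonempty.some_mem
      have := h.rk_eq
      exact h.sing_smul _ _ (h.sing_inv _ _ (h.sing_ee _ (CD.not_mid h.toCD (by
        rw [h.z0]; omega))))
    | insert a s ha ih =>
      rw [Finset.sum_insert ha]
      by_cases h1 : a.val < D.m
      · refine h.sing_add _ _ (h.sing_smul _ _ (h.sing_ee _ (CD.not_mid h.toCD h1))) ih
          (β_low h (fun b hb => ?_) fun b hb => ?_)
        · rw [Pi.smul_apply, ee_ne (by rintro rfl; exact hb h1), smul_zero]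
        · rw [Finset.sum_apply]
          refine Finset.sum_eq_zero fun c _ => ?_
          rw [Pi.smul_apply, ee_apply]
          split_ifs with h2
          · rw [← h2, hy b fun h3 => hb (Or.inl h3), zero_smul]
          · rw [smul_zero]
      · rwa [hy a h1, zero_smul, zero_add]
  have e : y = ∑ a, y a • ee a := by
    funext i
    rw [Finset.sum_apply, Finset.sum_eq_single i, Pi.smul_apply, ee_self, smul_eq_mul, mul_one]
    · intro b _ hb
      rw [Pi.smul_apply, ee_ne hb.symm, smul_zero]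
    · intro h1
      exact absurd (Finset.mem_univ i) h1
  rw [e]
  exact key _

/-- the middle part is anisotropic -/
lemma aniso (hD : ¬ D.dty) {x : Fin d → F} (hx : ∀ a, ¬ D.Mid a → x a = 0) (hs : D.sing x) :
    x = 0 := by
  by_contra hx0
  let C : Submodule F (Fin d → F) := Co F fun a => a.val < D.m
  have hmem : ∀ y ∈ C ⊔ F ∙ x, ∃ y' : Fin d → F, (∀ a : Fin d, ¬ a.val < D.m → y' a = 0) ∧
      ∃ c : F, y = y' + c • x := by
    intro y hy
    obtain ⟨y', hy', z, hz, rfl⟩ := Submodule.mem_sup.1 hy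
    obtain ⟨c, rfl⟩ := Submodule.mem_span_singleton.1 hz
    exact ⟨y', hy', c, rfl⟩
  have hx' : ∀ a : Fin d, ¬ (a.val < D.m ∨ D.Mid a) → x a = 0 := fun a ha =>
    hx a fun h1 => ha (Or.inr h1)
  have hTS : D.TS (C ⊔ F ∙ x) := by
    constructor
    · intro y hy
      obtain ⟨y', hy', c, rfl⟩ := hmem y hy
      exact h.sing_add _ _ (sing_low h hy') (h.sing_smul _ _ hs)
        (by rw [β_smul, β_low h hy' hx', mul_zero])
    · intro y hy z hz
      obtain ⟨y', hy', c, rfl⟩ := hmem y hy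
      obtain ⟨z', hz', c', rfl⟩ := hmem z hz
      rw [add_β, β_add, β_add, β_smul, smul_β, smul_β, β_smul, β_low h hy' hx',
        β_low h hy' (fun a ha => hz' a fun h1 => ha (Or.inl h1)), β_symm_zero h (β_low h hz' hx'),
        h.sing_self x hs]
      simp
  obtain ⟨g, j, hj, h1 | h1⟩ := h.witt _ hTS
  · have h2 : C < C ⊔ F ∙ x := by
      refine lt_of_le_of_ne le_sup_left fun h3 => hx0 (funext fun a => ?_)
      have h4 : x ∈ C := by
        rw [h3]
        exact Submodule.mem_sup_right (Submodule.mem_span_singleton_self x)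
      by_cases ha : a.val < D.m
      · exact hx a (CD.not_mid h.toCD ha)
      · exact h4 a ha
    have h3 := Submodule.finrank_lt_finrank_of_lt h2
    have h4 : (Co F fun a : Fin d => a.val < j) ≤ C := fun y hy a ha => hy a (by omega)
    rw [h1] at h3
    exact absurd ((Submodule.finrank_map_le _ _).trans (Submodule.finrank_mono h4)) (not_le.2 h3)
  · exact hD h1.1

lemma exists_q (hD : ¬ D.dty) : ∃ q : (Fin d → F) → F,
    (∀ (c : F) x, q (c • x) = D.σ c * c * q x) ∧ (∀ g x, q (D.ρ g *ᵥ x) = q x) ∧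
      ∀ x, (∀ a, ¬ D.Mid a → x a = 0) → q x = 0 → x = 0 := by
  by_cases hq : D.quad
  · obtain ⟨-, -, h1, Q, -, h2, h3, h4⟩ := h.quadr hq
    exact ⟨Q, fun c x => by rw [h2, h1, sq], h4, fun x hx h5 => aniso h hD hx ((h3 x).2 h5)⟩
  · exact ⟨fun x => D.β x x, fun c x => by simp only [smul_β, β_smul]; ring, fun g x => h.inv g x x,
      fun x hx h5 => aniso h hD hx (h.sing_of hq x h5)⟩

lemma eig_mid (hD : ¬ D.dty) {g : G} {x : Fin d → F} (hx : ∀ a, ¬ D.Mid a → x a = 0)
    (hx0 : x ≠ 0) {l : F} (hl : D.ρ g *ᵥ x = l • x) : D.σ l * l = 1 := by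
  obtain ⟨q, h1, h2, h3⟩ := exists_q h hD
  have h4 := h2 g x
  rw [hl, h1] at h4
  exact mul_right_cancel₀ (fun h5 => hx0 (h3 x hx h5)) (h4.trans (one_mul _).symm)

lemma sc_of (hD : ¬ D.dty) {a : Fin d} (ha : ¬ D.Mid a) {τ : G} (hτ : τ ∈ D.B ⊓ D.N) {c : Fin d}
    (hc : D.Mid c) (H : ∀ j, D.Mid j → D.ρ τ *ᵥ ee j = D.ρ τ a a • ee j) : Sc D a τ := by
  refine ⟨D.ρ τ a a, ?_⟩
  rintro j (rfl | hj | rfl)
  · exact T_ee h hτ ha
  · exact H j hj
  · have h1 := eig_mid h hD (x := ee c) (fun b hb => ee_ne (by rintro rfl; exact hb hc))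
      (fun h2 => by
        have := congrFun h2 c
        rw [ee_self] at this
        exact one_ne_zero this) (H c hc)
    have h2 := T_rev h hτ ha
    rw [T_ee h hτ (fun h3 => ha ((CD.mid_rev h.toCD).1 h3)),
      mul_left_cancel₀ (left_ne_zero_of_mul_eq_one h1) (h2.trans h1.symm)]

lemma hom_two [Finite G] (hD : ¬ D.dty) (hd : d = 2 * D.m + 2) {a : Fin d} (ha : ¬ D.Mid a) :
    ∃ α : (D.B ⊓ D.N : Subgroup G) →* AlgebraicClosure F, ∀ τ, α τ = 1 → Sc D a τ := by
  classical
  have hσ : ∀ r, D.σ r = r := by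
    by_contra h1
    push Not at h1
    have := h.d_le' h1
    omega
  let c : Fin 2 → Fin d := fun r => ⟨D.m + r.val, by omega⟩
  have hcm : ∀ r, D.Mid (c r) := fun r => by
    unfold Dat.Mid
    simp only [c, Fin.val_rev]
    omega
  have hcs : ∀ i, D.Mid i → ∃ r, i = c r := fun i hi => by
    unfold Dat.Mid at hi
    rw [Fin.val_rev] at hi
    exact ⟨⟨i.val - D.m, by omega⟩, Fin.ext (by simp only [c]; omega)⟩
  have hci : Function.Injective c := fun r r' hr => by
    have := congrArg Fin.val hr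
    simp only [c] at this
    exact Fin.ext (by omega)
  let A : Matrix (Fin d) (Fin 2) F := of fun i r => if i = c r then 1 else 0
  have hA : ∀ (M : Matrix (Fin d) (Fin d) F) i r, (M * A) i r = M i (c r) := fun M i r => by
    simp [A, mul_apply]
  have hA' : ∀ {n : Type} (M : Matrix (Fin 2) n F) r j, (A * M) (c r) j = M r j := fun M r j => by
    simp [A, mul_apply, hci.eq_iff]
  have hA'' : ∀ {n : Type} (M : Matrix (Fin 2) n F) i j, ¬ D.Mid i → (A * M) i j = 0 :=
    fun M i j hi => by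
      rw [mul_apply]
      refine Finset.sum_eq_zero fun r _ => ?_
      rw [show A i r = 0 from if_neg (by rintro rfl; exact hi (hcm r)), zero_mul]
  have hAA : Aᵀ * A = 1 := by
    ext r r'
    simp [A, mul_apply, hci.eq_iff, one_apply, eq_comm]
  let S : G → Matrix (Fin 2) (Fin 2) F := fun τ => (D.ρ τ).submatrix c c
  have hS : ∀ τ ∈ D.B ⊓ D.N, D.ρ τ * A = A * S τ := by
    intro τ hτ
    ext i r
    rw [hA]
    by_cases hi : D.Mid i
    · obtain ⟨r', rfl⟩ := hcs i hi
      rw [hA']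
      rfl
    · rw [hA'' _ _ _ hi]
      exact (h.mon_T τ hτ.1 hτ.2).2.2 _ _ (hcm r) hi
  have hS' : ∀ τ ∈ D.B ⊓ D.N, S τ = Aᵀ * D.ρ τ * A := fun τ hτ => by
    rw [Matrix.mul_assoc, hS τ hτ, ← Matrix.mul_assoc, hAA, Matrix.one_mul]
  let S1 : (D.B ⊓ D.N : Subgroup G) →* Matrix (Fin 2) (Fin 2) F :=
    { toFun := fun τ => S τ
      map_one' := by simp [S, submatrix_one _ hci]
      map_mul' := fun τ τ' => by
        show S (τ * τ') = S τ * S τ'
        rw [hS' _ (mul_mem τ.2 τ'.2), map_mul, Matrix.mul_assoc, Matrix.mul_assoc, hS _ τ'.2,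
          ← Matrix.mul_assoc (D.ρ τ), hS _ τ.2, ← Matrix.mul_assoc, ← Matrix.mul_assoc, hAA,
          Matrix.one_mul] }
  have hdet : ∀ τ ∈ D.B ⊓ D.N, (S τ).det = 1 := by
    intro τ hτ
    let f : Fin d → F := fun i => if D.Mid i then 1 else D.ρ τ i i
    have h1 : D.ρ τ = diagonal f * (1 + A * ((S τ - 1) * Aᵀ)) := by
      ext i j
      rw [diagonal_mul, Matrix.add_apply]
      by_cases hi : D.Mid i
      · obtain ⟨r, rfl⟩ := hcs i hi
        rw [hA', show f (c r) = 1 from if_pos hi, one_mul, ← transpose_apply (_ * Aᵀ),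
          transpose_mul, transpose_transpose]
        by_cases hj : D.Mid j
        · obtain ⟨r', rfl⟩ := hcs j hj
          rw [hA', transpose_apply, Matrix.sub_apply, one_apply, one_apply]
          simp only [hci.eq_iff]
          show _ = _ + (D.ρ τ (c r) (c r') - _)
          ring
        · rw [hA'' _ _ _ hj, add_zero, entry_of_ee (T_ee h hτ hj),
            if_neg (by rintro rfl; exact hj hi), one_apply_ne (by rintro rfl; exact hj hi)]
      · rw [hA'' _ _ _ hi, add_zero, show f i = D.ρ τ i i from if_neg hi]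
        by_cases hij : i = j
        · rw [hij, one_apply_eq, mul_one]
        · rw [one_apply_ne hij, mul_zero]
          by_cases hj : D.Mid j
          · exact (h.mon_T τ hτ.1 hτ.2).2.2 _ _ hj hi
          · rw [entry_of_ee (T_ee h hτ hj), if_neg hij]
    have h2 : ∏ i, f i = 1 := by
      refine Finset.prod_involution (fun i _ => i.rev) (fun i _ => ?_) (fun i _ hi h3 => hi ?_)
        (fun i _ => Finset.mem_univ _) fun i _ => Fin.rev_rev i
      · by_cases hi : D.Mid i
        · rw [show f i = 1 from if_pos hi,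
            show f i.rev = 1 from if_pos ((CD.mid_rev h.toCD).2 hi), one_mul]
        · rw [show f i = _ from if_neg hi,
            show f i.rev = _ from if_neg (fun h3 => hi ((CD.mid_rev h.toCD).1 h3)), ← T_rev h hτ hi,
            hσ]
      · refine if_pos ?_
        by_contra h4
        exact ne_rev h.toCD h4 h3.symm
    have h3 := CD.det_one h.toCD τ
    rwa [h1, det_mul, det_diagonal, h2, one_mul, det_one_add_mul_comm, Matrix.mul_assoc, hAA,
      Matrix.mul_one, add_sub_cancel] at h3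
  let t := (diagHom D.ρ a fun τ hτ => T_ee h hτ ha).toHomUnits
  let M : (D.B ⊓ D.N : Subgroup G) →* Matrix (Fin 2) (Fin 2) F :=
    { toFun := fun τ => ((t τ)⁻¹ : Fˣ) • S1 τ
      map_one' := by simp
      map_mul' := fun τ τ' => by
        rw [map_mul, map_mul, smul_mul_smul_comm, mul_inv] }
  have hM : ∀ τ, M τ = ((t τ)⁻¹ : Fˣ) • S τ := fun _ => rfl
  haveI := h.char
  have hn0 : ((Nat.card (D.B ⊓ D.N : Subgroup G) : ℕ) : F) ≠ 0 := fun h1 =>
    (CD.sb h.toCD).coprime ((CharP.cast_eq_zero_iff F p _).1 h1)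
  obtain ⟨α, hα⟩ := cyc2 M (fun τ τ' => by
    rw [← map_mul, ← map_mul]
    congr 1
    exact Subtype.ext (h.sba.comm _ τ.2.1 τ.2.2 _ τ'.2.1 τ'.2.2)) (fun τ => by
    by_contra hcon
    push Not at hcon
    obtain ⟨h1, v, l, hv, hv0⟩ := hcon
    have h2 : S τ *ᵥ v = ((t τ : F) * l) • v := by
      rw [hM, smul_mulVec, inv_smul_eq_iff] at hv
      rw [hv, mul_smul]
      rfl
    have h3 : D.ρ τ *ᵥ (A *ᵥ v) = ((t τ : F) * l) • (A *ᵥ v) := by
      rw [mulVec_mulVec, hS _ τ.2, ← mulVec_mulVec, h2, mulVec_smul]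
    have h4 := eig_mid h hD (x := A *ᵥ v) (fun i hi => by
      rw [mulVec, dotProduct]
      refine Finset.sum_eq_zero fun r _ => ?_
      rw [show A i r = 0 from if_neg (by rintro rfl; exact hi (hcm r)), zero_mul])
      (fun h5 => hv0 (by rw [← one_mulVec v, ← hAA, ← mulVec_mulVec, h5, mulVec_zero])) h3
    rw [hσ] at h4
    have h5 := two_scalar (hdet _ τ.2) hv0 h2 h4 (n := Nat.card (D.B ⊓ D.N : Subgroup G))
      (by rw [show S τ = S1 τ from rfl, ← map_pow, pow_card_eq_one', map_one]) hn0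
    apply h1 l
    rw [hM, h5, mul_smul, ← Units.smul_def, inv_smul_smul])
  refine ⟨α, fun τ hτ => sc_of h hD ha τ.2 (hcm 0) fun j hj => ?_⟩
  have h1 := hα τ hτ
  rw [hM, inv_smul_eq_iff] at h1
  obtain ⟨r, rfl⟩ := hcs j hj
  have h2 := hS _ τ.2
  rw [h1] at h2
  funext i
  rw [mulVec_ee, ← hA (D.ρ τ), h2, Matrix.mul_smul, Matrix.mul_one, Matrix.smul_apply, Pi.smul_apply,
    ee_apply]
  rfl

lemma exists_hom [Finite G] (hD : ¬ D.dty) {a : Fin d} (ha : ¬ D.Mid a) :
    ∃ α : (D.B ⊓ D.N : Subgroup G) →* AlgebraicClosure F, ∀ τ, α τ = 1 → Sc D a τ := by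
  have h1 := h.le_d
  have h2 := h.d_le
  have key : ∀ c : Fin d, (∀ τ ∈ D.B ⊓ D.N, D.ρ τ *ᵥ ee c = D.ρ τ c c • ee c) →
      ∃ α : (D.B ⊓ D.N : Subgroup G) →* AlgebraicClosure F, ∀ τ, α τ = 1 →
        D.ρ τ c c = D.ρ τ a a := by
    intro c hc
    refine ⟨((algebraMap F (AlgebraicClosure F)).toMonoidHom.comp (Units.coeHom F)).comp
      ((diagHom D.ρ c hc).toHomUnits / (diagHom D.ρ a fun τ hτ => T_ee h hτ ha).toHomUnits),
      fun τ hτ => ?_⟩
    have h3 : (diagHom D.ρ c hc).toHomUnits τ /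
        (diagHom D.ρ a fun τ hτ => T_ee h hτ ha).toHomUnits τ = 1 :=
      Units.ext ((algebraMap F (AlgebraicClosure F)).injective (hτ.trans (map_one _).symm))
    exact congrArg Units.val (div_eq_one.1 h3)
  by_cases hd : d = 2 * D.m + 2
  · exact hom_two h hD hd ha
  · by_cases hd' : d = 2 * D.m
    · have ha' : ¬ D.Mid a.rev := fun h3 => ha ((CD.mid_rev h.toCD).1 h3)
      obtain ⟨α, hα⟩ := key a.rev fun τ hτ => T_ee h hτ ha'
      refine ⟨α, fun τ hτ => ⟨D.ρ τ a a, ?_⟩⟩
      rintro j (rfl | hj | rfl)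
      · exact T_ee h τ.2 ha
      · unfold Dat.Mid at hj
        rw [Fin.val_rev] at hj
        omega
      · rw [T_ee h τ.2 ha', hα τ hτ]
    · let c : Fin d := ⟨D.m, by omega⟩
      have hc : D.Mid c := by
        unfold Dat.Mid
        simp only [c, Fin.val_rev]
        omega
      have hc' : ∀ i, D.Mid i → i = c := fun i hi => by
        unfold Dat.Mid at hi
        rw [Fin.val_rev] at hi
        exact Fin.ext (by simp only [c]; omega)
      have hcc : ∀ τ ∈ D.B ⊓ D.N, D.ρ τ *ᵥ ee c = D.ρ τ c c • ee c := fun τ hτ => by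
        funext i
        rw [mulVec_ee, Pi.smul_apply, ee_apply]
        split_ifs with hi
        · rw [hi, smul_eq_mul, mul_one]
        · rw [smul_zero]
          exact (h.mon_T τ hτ.1 hτ.2).2.2 c i hc fun h3 => hi (hc' i h3)
      obtain ⟨α, hα⟩ := key c hcc
      refine ⟨α, fun τ hτ => sc_of h hD ha τ.2 hc fun j hj => ?_⟩
      rw [hc' j hj, hcc _ τ.2, hα τ hτ]

variable (hD : ¬ D.dty) {a : Fin d} (ha : a.val + 1 = D.m)
include hD ha

lemma sc_conj {τ : G} (hτ : Sc D a τ) : Sc D a ((D.nd a.val)⁻¹ * τ * D.nd a.val) := by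
  obtain ⟨l, hl⟩ := hτ
  have hw := h.mon_last hD a ha
  have hma : ¬ D.Mid a := CD.not_mid h.toCD (by omega)
  refine ⟨l, fun j hj => ?_⟩
  have h1 : ∀ i, ¬ Blk D a i → D.ρ (D.nd a.val) i j = 0 := by
    intro i hi
    by_cases hj' : D.Mid j
    · exact hw.2.2 j i hj' fun h2 => hi (Or.inr (Or.inl h2))
    · obtain ⟨c, hc⟩ := hw.2.1 j hj'
      rw [entry_of_ee hc, if_neg]
      rintro rfl
      rcases hj with rfl | h2 | rfl
      · exact hi (Or.inr (Or.inr (Equiv.swap_apply_left _ _)))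
      · exact hj' h2
      · exact hi (Or.inl (Equiv.swap_apply_right _ _))
  have h2 : D.ρ τ *ᵥ (D.ρ (D.nd a.val) *ᵥ ee j) = l • (D.ρ (D.nd a.val) *ᵥ ee j) := by
    funext i
    rw [mulVec, dotProduct, Finset.sum_eq_single i, Pi.smul_apply, mulVec_ee, smul_eq_mul]
    · by_cases hi : Blk D a i
      · rw [entry_of_ee (hl i hi), if_pos rfl]
      · rw [h1 i hi, mul_zero, mul_zero]
    · intro k _ hk
      rw [mulVec_ee]
      by_cases hk' : Blk D a k
      · rw [entry_of_ee (hl k hk'), if_neg hk.symm, zero_mul]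
      · rw [h1 k hk', mul_zero]
    · intro h3
      exact absurd (Finset.mem_univ i) h3
  rw [rho_mulVec, rho_mulVec, h2, mulVec_smul, rho_inv_mulVec]

lemma sc_comm {τ : G} (hτT : τ ∈ D.B ⊓ D.N) (hτ : Sc D a τ) {u : G} (hu : u ∈ D.U) :
    τ * u * τ⁻¹ * u⁻¹ ∈ Kg D.U (D.nd a.val) := by
  obtain ⟨l, hl⟩ := hτ
  have hw := h.mon_last hD a ha
  have hsb := CD.sb h.toCD
  have hrk := h.rk_eq
  have hd := h.le_d
  have hs : D.nd a.val ∈ D.S := CD.nd_mem h.toCD (by omega)
  let H : Subgroup G :=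
    { carrier := {m | m ∈ D.U ∧ τ * m * τ⁻¹ * m⁻¹ ∈ Kg D.U (D.nd a.val)}
      one_mem' := ⟨one_mem _, by simpa using one_mem (Kg D.U (D.nd a.val))⟩
      mul_mem' := by
        rintro x y ⟨hx, hx'⟩ ⟨hy, hy'⟩
        refine ⟨mul_mem hx hy, ?_⟩
        have := mul_mem hx' (hsb.Kg_conj hs (le_Par (hsb.le hx)) hy')
        convert this using 1
        group
      inv_mem' := by
        rintro x ⟨hx, hx'⟩
        refine ⟨inv_mem hx, ?_⟩
        have := hsb.Kg_conj' hs (le_Par (hsb.le hx)) (inv_mem hx')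
        convert this using 1
        group }
  refine (((closure_le H).2 ?_) (h.gen hu)).2
  rintro g ⟨hg, a', b', hab', ha', hb', hg'⟩
  refine ⟨hg, ?_⟩
  by_cases hlt : Equiv.swap a a.rev a' < Equiv.swap a a.rev b'
  · have h1 := pat_K h hw hg ha' hb' hg' hlt
    exact mul_mem (hsb.Kg_conj hs (le_Par hτT.1) h1) (inv_mem h1)
  · have h1 : a' = a ∧ b' = a.rev := by
      rw [Equiv.swap_apply_def, Equiv.swap_apply_def] at hlt
      unfold Dat.Mid at ha' hb'
      rw [Fin.lt_def] at hab'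
      split_ifs at hlt with e1 e2 e3 e4 e5 e6 e7 e8 <;>
        simp only [Fin.ext_iff, Fin.lt_def, Fin.val_rev] at * <;> omega
    obtain ⟨rfl, rfl⟩ := h1
    have hN : ∀ i j, (D.ρ g - 1) i j ≠ 0 → Blk D a' i ∧ Blk D a' j := by
      intro i j hij
      have h2 : i ≠ j := by
        rintro rfl
        exact hij (by rw [Matrix.sub_apply, (h.up g hg).1.2, one_apply_eq, sub_self])
      rw [Matrix.sub_apply, one_apply_ne h2, sub_zero] at hij
      have h3 : D.Pat a' a'.rev i j := by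
        by_contra h4
        exact hij (hg' i j h2 h4)
      rcases h3 with h4 | h4 | ⟨-, h4 | h4⟩
      · exact ⟨Or.inl h4.1, Or.inr (Or.inr h4.2)⟩
      · rw [Fin.rev_rev] at h4
        exact ⟨Or.inl h4.1, Or.inr (Or.inr h4.2)⟩
      · exact ⟨Or.inl h4.1, Or.inr (Or.inl h4.2)⟩
      · exact ⟨Or.inr (Or.inl h4.1), Or.inr (Or.inr h4.2)⟩
    have h2 : D.ρ τ * (D.ρ g - 1) = l • (D.ρ g - 1) := by
      ext i j
      rw [mul_apply, Finset.sum_eq_single i, Matrix.smul_apply, smul_eq_mul]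
      · by_cases h3 : (D.ρ g - 1) i j = 0
        · rw [h3, mul_zero, mul_zero]
        · rw [entry_of_ee (hl i (hN i j h3).1), if_pos rfl]
      · intro k _ hk
        by_cases h3 : (D.ρ g - 1) k j = 0
        · rw [h3, mul_zero]
        · rw [entry_of_ee (hl k (hN k j h3).1), if_neg hk.symm, zero_mul]
      · intro h3
        exact absurd (Finset.mem_univ i) h3
    have h3 : (D.ρ g - 1) * D.ρ τ = l • (D.ρ g - 1) := by
      ext i j
      rw [mul_apply, Finset.sum_eq_single j, Matrix.smul_apply, smul_eq_mul]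
      · by_cases h3 : (D.ρ g - 1) i j = 0
        · rw [h3, mul_zero, zero_mul]
        · rw [entry_of_ee (hl j (hN i j h3).2), if_pos rfl, mul_comm]
      · intro k _ hk
        by_cases hj : Blk D a' j
        · rw [entry_of_ee (hl j hj), if_neg hk, mul_zero]
        · rw [entry_of_ee (T_ee h hτT fun h4 => hj (Or.inr (Or.inl h4))), if_neg hk, mul_zero]
      · intro h3
        exact absurd (Finset.mem_univ j) h3
    have h4 : τ * g = g * τ := by
      refine CD.comm_of h.toCD (CD.isP h.toCD hg) ?_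
      have := h2.trans h3.symm
      rw [mul_sub, sub_mul, mul_one, one_mul] at this
      exact sub_left_injective this
    rw [h4, mul_inv_cancel_right, mul_inv_cancel]
    exact one_mem _

theorem last [Finite G] : ∃ α : (D.B ⊓ D.N : Subgroup G) →* AlgebraicClosure F, ∀ τ, α τ = 1 →
    (∀ u ∈ D.U, τ * u * τ⁻¹ * u⁻¹ ∈ Kg D.U (D.nd a.val)) ∧
      ∀ u ∈ D.U, ((D.nd a.val)⁻¹ * τ * D.nd a.val) * u * ((D.nd a.val)⁻¹ * τ * D.nd a.val)⁻¹ * u⁻¹ ∈
        Kg D.U (D.nd a.val) := by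
  obtain ⟨α, hα⟩ := exists_hom h hD (a := a) (CD.not_mid h.toCD (by omega))
  have hrk := h.rk_eq
  have hN := CD.nd_N h.toCD (i := a.val) (by omega)
  refine ⟨α, fun τ hτ => ⟨fun u hu => sc_comm h hD ha τ.2 (hα τ hτ) hu, fun u hu =>
    sc_comm h hD ha (mem_inf.2 ⟨(CD.sb h.toCD).norm' hN τ.2.1 τ.2.2,
      mul_mem (mul_mem (inv_mem hN) (mem_inf.1 τ.2).2) hN⟩) (sc_conj h hD ha (hα τ hτ)) hu⟩⟩

end CDF

end Vale.Agent.P183K.Lift
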