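import Vale.Agent.P183K.Lift.LastF

/-!
# P183K: classical data lift to central `p'`-extensions generated by `p`-elements (helper2)
-/

set_option autoImplicit false
set_option linter.all false

namespace Vale.Agent.P183K.Lift

open Matrix Subgroup Vale.Agent.P240.H195 Vale.Agent.P183CR Vale.Agent.P183M
open Vale.Agent.P183K.Def (St stW stH Node Ms CP liftS liftE T1)

universe u

lemma closure_comm {L : Type u} [Group L] {X : Set L} (hX : ∀ x ∈ X, ∀ y ∈ X, x * y = y * x)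
    {a b : L} (ha : a ∈ closure X) (hb : b ∈ closure X) : a * b = b * a := by
  have h3 : ∀ s ∈ X, s * b = b * s := by
    intro s hs
    have : closure X ≤ centralizer {s} := (closure_le _).2 fun s' hs' => by
      rw [SetLike.mem_coe, mem_centralizer_singleton_iff]
      exact hX s' hs' s hs
    exact (mem_centralizer_singleton_iff.1 (this hb)).symm
  have : closure X ≤ centralizer {b} := (closure_le _).2 fun s hs => by
    rw [SetLike.mem_coe, mem_centralizer_singleton_iff]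
    exact h3 s hs
  exact mem_centralizer_singleton_iff.1 (this ha)

lemma mem_sup_of_comm {L : Type u} [Group L] {A M : Subgroup L}
    (hc : ∀ a ∈ A, ∀ m ∈ M, a * m = m * a) {x : L} (hx : x ∈ A ⊔ M) :
    ∃ a ∈ A, ∃ m ∈ M, x = a * m := by
  let H : Subgroup L :=
    { carrier := {x | ∃ a ∈ A, ∃ m ∈ M, x = a * m}
      one_mem' := ⟨1, one_mem _, 1, one_mem _, (mul_one _).symm⟩
      mul_mem' := by
        rintro _ _ ⟨a, ha, m, hm, rfl⟩ ⟨a', ha', m', hm', rfl⟩
        refine ⟨a * a', mul_mem ha ha', m * m', mul_mem hm hm', ?_⟩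
        rw [mul_assoc, ← mul_assoc m, ← hc a' ha' m hm]
        group
      inv_mem' := by
        rintro _ ⟨a, ha, m, hm, rfl⟩
        exact ⟨a⁻¹, inv_mem ha, m⁻¹, inv_mem hm, by rw [hc a ha m hm, _root_.mul_inv_rev]⟩ }
  exact (sup_le (fun a ha => ⟨a, ha, 1, one_mem _, (mul_one _).symm⟩)
    (fun m hm => ⟨1, one_mem _, m, hm, (one_mul _).symm⟩) : A ⊔ M ≤ H) hx

lemma sb_of_sub {L : Type u} [Group L] {r : ℕ} {B N U : Subgroup L} {S S' : Set L}
    (h : SB r B N U S) (hS : S' ⊆ S) (hS' : ∀ s ∈ S, ∃ s' ∈ S', s'⁻¹ * s ∈ B) : SB r B N U S' where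
  norm := h.norm
  sub s hs := h.sub s (hS hs)
  span := by
    refine le_antisymm ?_ (sup_le ((closure_le _).2 fun s hs => h.sub s (hS hs)) inf_le_right)
    conv_lhs => rw [h.span]
    refine sup_le ((closure_le _).2 fun s hs => ?_) le_sup_right
    obtain ⟨s', hs', h1⟩ := hS' s hs
    have := mul_mem (mem_sup_left (T := B ⊓ N) (subset_closure hs'))
      (mem_sup_right (S := closure S') (mem_inf.2 ⟨h1, mul_mem (inv_mem (h.sub s' (hS hs')))
        (h.sub s hs)⟩))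
    rwa [mul_inv_cancel_left] at this
  sq s hs := h.sq s (hS hs)
  mul s hs := h.mul s (hS hs)
  thick s hs := h.thick s (hS hs)
  gen := h.gen
  le := h.le
  pgroup := h.pgroup
  normal := h.normal
  split := h.split
  coprime := h.coprime
  strong s hs := h.strong s (hS hs)
  opp := h.opp
  nonempty := by
    obtain ⟨s, hs⟩ := h.nonempty
    obtain ⟨s', hs', -⟩ := hS' s hs
    exact ⟨s', hs'⟩

section Cover
variable {E G : Type u} [Group E] [Group G] {p : ℕ} {π : E →* G} (c : CP p π) [Finite E]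
  [hp : Fact p.Prime]
include c

lemma mem_of_isP {M : Subgroup E} (hM : M.map π = ⊤) {e : E} (he : IsP p e) : e ∈ M := by
  have c' : CP p (π.comp M.subtype) :=
    ⟨fun g => by
      have : g ∈ M.map π := by rw [hM]; exact mem_top g
      obtain ⟨m, hm, rfl⟩ := this
      exact ⟨⟨m, hm⟩, rfl⟩,
    fun z hz g => Subtype.ext (c.central z hz g), fun z hz h1 =>
      Subtype.ext (c.pp z hz (congrArg Subtype.val h1))⟩
  obtain ⟨m, hm, hm'⟩ := c'.exists_lift (Def.IsP.map he π)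
  rw [c.uniq he (Def.IsP.map hm' M.subtype) hm.symm]
  exact m.2

lemma eq_top_of_map (hE : closure {e : E | IsP p e} = ⊤) {M : Subgroup E} (hM : M.map π = ⊤) :
    M = ⊤ := by
  rw [eq_top_iff, ← hE, closure_le]
  exact fun e he => mem_of_isP c hM he

variable {B N U : Subgroup G} {S : Set G} (h : SB p B N U S)
include h

lemma mem_Kg_of {s' e : E} (he : e ∈ liftS p π U) (h1 : π e ∈ Kg U (π s')) :
    e ∈ Kg (liftS p π U) s' := by
  refine mem_Kg.2 ⟨he, (c.mem_liftS h.pgroup).2 ⟨?_, ((c.mem_liftS h.pgroup).1 he).2.conj _⟩⟩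
  rw [map_mul, map_mul, map_inv]
  exact (mem_Kg.1 h1).2

lemma mem_T1 (hE : closure {e : E | IsP p e} = ⊤) (hG : normalClosure (U : Set G) = ⊤) {t : E}
    (h1 : π t ∈ B) (h2 : π t ∈ N) : t ∈ T1 (B.comap π) (N.comap π) (liftS p π U) (π ⁻¹' S) := by
  refine Def.mem_T1_of_G0 (c.sb h) hp.out subset_rfl h1 h2 ?_
  rw [← Def.normalClosure_eq (c.sb h) hp.out, eq_top_of_map c hE
    ((c.map_normalClosure h).trans hG)]
  exact mem_top t

lemma node_torus {F : Type} [Field F] [Finite F] [CharP F p] {s : G} {x y : F → G}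
    (hn : Node B N U s x y) {s' t : E} (hs : π s' ∈ S) (hs' : π s' = s) (h1 : π t ∈ B)
    (h2 : π t ∈ N) (h3 : t ∈ Ms (liftS p π U) s') :
    t ∈ (c.st hn.toSt).hom.range := by
  obtain ⟨a, ha⟩ := (c.node h hn hs').torus (c.sb h) hs hp.out h1 h2 h3
  exact ⟨a, ha.symm⟩

/-- the torus of the cover is abelian -/
lemma comm_cover {F : Type} [Field F] [Finite F] [CharP F p]
    (hE : closure {e : E | IsP p e} = ⊤) (hG : normalClosure (U : Set G) = ⊤) {Lst : Set G}
    (hA : ∀ s ∈ S, s ∈ Lst ∨ ∃ x y : F → G, Node B N U s x y ∧ ∀ τ ∈ B, τ ∈ N → ∃ l : F, l ≠ 0 ∧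
      (∀ t, τ * x t * τ⁻¹ = x (l * t)) ∧ ∀ t, τ * y t * τ⁻¹ = y (l⁻¹ * t))
    (hL : ∀ s ∈ Lst, ∀ s' ∈ Lst, s = s')
    (hα : ∀ s ∈ Lst, ∃ α : (B ⊓ N : Subgroup G) →* AlgebraicClosure F, ∀ τ, α τ = 1 →
      (∀ u ∈ U, τ * u * τ⁻¹ * u⁻¹ ∈ Kg U s) ∧
        ∀ u ∈ U, (s⁻¹ * τ * s) * u * (s⁻¹ * τ * s)⁻¹ * u⁻¹ ∈ Kg U s)
    {a b : E} (haB : π a ∈ B) (haN : π a ∈ N) (hbB : π b ∈ B) (hbN : π b ∈ N) : a * b = b * a := by
  classical
  have hc := c.sb h
  have hcen : ∀ s' t, π s' ∈ S → π s' ∉ Lst → π t ∈ B → π t ∈ N → t ∈ Ms (liftS p π U) s' →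
      ∀ τ, π τ ∈ B → π τ ∈ N → τ * t = t * τ := by
    intro s' t hs hs' h1 h2 h3 τ h4 h5
    obtain ⟨x, y, hn, hact⟩ := (hA _ hs).resolve_left hs'
    obtain ⟨e, rfl⟩ := node_torus c h hn hs rfl h1 h2 h3
    obtain ⟨l, hl, h6, h7⟩ := hact _ h4 h5
    exact (c.comm_torus hn.toSt hl e.ne_zero h6 h7 (c.map_stH hn.toSt _)).eq
  refine closure_comm ?_ (mem_T1 c h hE hG haB haN) (mem_T1 c h hE hG hbB hbN)
  rintro x ⟨x1, x2, s, hs, x3⟩ y ⟨y1, y2, s', hs', y3⟩
  by_cases h1 : π s ∈ Lst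
  · by_cases h2 : π s' ∈ Lst
    · obtain ⟨α, hα'⟩ := hα _ h1
      have y4 : y ∈ Ms (liftS p π U) s := Def.Ms_congr hc (by
        rw [mem_comap, map_mul, map_inv, hL _ h1 _ h2, inv_mul_cancel]; exact one_mem _) y3
      refine comm_last hc hp.out hs (fun e => if he : π e ∈ B ⊓ N then α ⟨π e, he⟩ else 0)
        (fun a ha ha' b hb hb' => ?_) ?_ (fun τ hτ hτ' h3 => ?_) ⟨⟨x1, x2⟩, x3⟩ ⟨⟨y1, y2⟩, y4⟩
      · have h3 : π a ∈ B ⊓ N := ⟨ha, ha'⟩
        have h4 : π b ∈ B ⊓ N := ⟨hb, hb'⟩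
        have h5 : π (a * b) ∈ B ⊓ N := by rw [map_mul]; exact mul_mem h3 h4
        simp only [dif_pos h3, dif_pos h4, dif_pos h5]
        rw [← map_mul]
        congr 1
        exact Subtype.ext (map_mul π a b)
      · have h5 : π 1 ∈ B ⊓ N := by rw [map_one]; exact one_mem _
        simp only [dif_pos h5]
        rw [← map_one α]
        congr 1
        exact Subtype.ext (map_one π)
      · have h4 : π τ ∈ B ⊓ N := ⟨hτ, hτ'⟩
        simp only [dif_pos h4] at h3
        obtain ⟨h5, h6⟩ := hα' _ h3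
        refine ⟨fun u hu => mem_Kg_of c h (mul_mem (hc.normal τ hτ u hu) (inv_mem hu)) ?_,
          fun u hu => mem_Kg_of c h (mul_mem (hc.normal _ (hc.norm' (hc.sub s hs) hτ hτ') u hu)
            (inv_mem hu)) ?_⟩
        · simp only [map_mul, map_inv]
          exact h5 _ ((c.mem_liftS h.pgroup).1 hu).1
        · simp only [map_mul, map_inv]
          exact h6 _ ((c.mem_liftS h.pgroup).1 hu).1
    · exact hcen s' y hs' h2 y1 y2 y3 x x1 x2
  · exact (hcen s x hs h1 x1 x2 x3 y y1 y2).symm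

end Cover

variable {E G : Type u} [Group E] [Group G] {R F0 : Type} [CommRing R] [Field F0] {d : ℕ}

/-- the pull-back of classical data -/
noncomputable def pull (D : Dat G R F0 d) (p : ℕ) (π : E →* G) : Dat E R F0 d :=
  haveI : Nonempty E := ⟨1⟩
  { ρ := D.ρ.comp π
    σ := D.σ
    J := D.J
    sing := D.sing
    B := D.B.comap π
    N := D.N.comap π
    U := liftS p π D.U
    nd := fun i => Function.invFun π (D.nd i)
    rk := D.rk
    m := D.m
    z := D.z
    ι := D.ι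
    x := fun t => liftE p π (D.x t)
    N0 := D.N0
    n0 := Function.invFun π D.n0
    lty := D.lty
    dty := D.dty
    quad := D.quad }

variable {p : ℕ} {D : Dat G R F0 d} {π : E →* G}

lemma pull_ρ (e : E) : (pull D p π).ρ e = D.ρ (π e) := rfl

lemma pull_nd (c : CP p π) (i : ℕ) : π ((pull D p π).nd i) = D.nd i :=
  haveI : Nonempty E := ⟨1⟩
  Function.rightInverse_invFun c.surj _

lemma pull_n0 (c : CP p π) : π (pull D p π).n0 = D.n0 :=
  haveI : Nonempty E := ⟨1⟩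
  Function.rightInverse_invFun c.surj _

variable [Finite E] (c : CP p π) (hE : closure {e : E | IsP p e} = ⊤)
include c hE

lemma ker_le (h : CD p D)
    (hc : ∀ a b : E, π a ∈ D.B → π a ∈ D.N → π b ∈ D.B → π b ∈ D.N → a * b = b * a)
    {A : Subgroup E} (hA : ∀ a ∈ A, π a ∈ D.B ∧ π a ∈ D.N)
    (hs : ∀ s', π s' ∈ D.S → π s' ∈ LS D.ρ (ee D.z) ∨
      ∀ t, π t ∈ D.B → π t ∈ D.N → t ∈ Ms (liftS p π D.U) s' → t ∈ A)
    (hA1 : ∀ a ∈ A, D.ρ (π a) *ᵥ ee D.z = ee D.z → a = 1) {z : E} (hz : π z = 1) :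
    z ∈ closure {e | IsP p e ∧ D.ρ (π e) *ᵥ ee D.z = ee D.z} := by
  haveI : Fact p.Prime := ⟨CD.prime h⟩
  have hsb := CD.sb h
  set M := closure {e | IsP p e ∧ D.ρ (π e) *ᵥ ee D.z = ee D.z} with hM
  have hMfix : ∀ m ∈ M, D.ρ (π m) *ᵥ ee D.z = ee D.z := by
    let H : Subgroup E :=
      { carrier := {g | D.ρ (π g) *ᵥ ee D.z = ee D.z}
        one_mem' := by simp
        mul_mem' := fun {a b} ha hb => by
          show D.ρ (π (a * b)) *ᵥ _ = _
          rw [map_mul, rho_mulVec, hb, ha]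
        inv_mem' := fun {a} ha => by
          show D.ρ (π a⁻¹) *ᵥ _ = _
          conv_lhs => rw [← ha]
          rw [map_inv, rho_inv_mulVec] }
    exact (closure_le H).2 fun e he => he.2
  have h1 : z ∈ A ⊔ (M ⊓ (D.B.comap π ⊓ D.N.comap π)) := by
    refine ((closure_le _).2 ?_ : T1 _ _ _ _ ≤ _) (mem_T1 c hsb hE (CD.normalClosure_U h)
      (by rw [hz]; exact one_mem _) (by rw [hz]; exact one_mem _))
    rintro t ⟨t1, t2, s', hs', t3⟩
    rcases hs s' hs' with h2 | h2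
    · refine mem_sup_right ⟨(Def.Ms_le (H := M) (fun u hu => ?_) fun u hu => ?_) t3, t1, t2⟩
      · obtain ⟨h3, h4⟩ := (c.mem_liftS hsb.pgroup).1 hu
        exact subset_closure ⟨h4, CD.U_fix h h3⟩
      · obtain ⟨h3, h4⟩ := (c.mem_liftS hsb.pgroup).1 hu
        obtain ⟨a, ha⟩ := inv_mem h2
        refine subset_closure ⟨h4.conj _, ?_⟩
        rw [map_mul π, map_mul π, map_inv, rho_mulVec, rho_mulVec, ha, mulVec_smul, CD.U_fix h h3, ← ha,
          rho_mulVec_inv]
    · exact mem_sup_left (h2 t t1 t2 t3)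
  obtain ⟨a, ha, m, hm, rfl⟩ := mem_sup_of_comm (M := M ⊓ (D.B.comap π ⊓ D.N.comap π))
    (fun a ha m hm => hc a m (hA a ha).1 (hA a ha).2 hm.2.1 hm.2.2) h1
  have h2 := hMfix m hm.1
  have h3 : D.ρ (π a) *ᵥ ee D.z = ee D.z := by
    conv_lhs => rw [← h2, ← rho_mulVec, ← map_mul, hz, map_one, one_mulVec]
  rw [hA1 a ha h3, one_mul]
  exact hm.1

theorem cd_pull (h : CD p D)
    (hc : ∀ a b : E, π a ∈ D.B → π a ∈ D.N → π b ∈ D.B → π b ∈ D.N → a * b = b * a)
    (hker : ∀ z, π z = 1 → z ∈ closure {e | IsP p e ∧ D.ρ (π e) *ᵥ ee D.z = ee D.z}) :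
    CD p (pull D p π) := by
  haveI : Fact p.Prime := ⟨CD.prime h⟩
  have hsb := CD.sb h
  have hx : ∀ t, π ((pull D p π).x t) = D.x t := fun t => c.map_liftE (CD.isP h (h.x_mem t))
  have hsb' : SB p (D.B.comap π) (D.N.comap π) (liftS p π D.U) (pull D p π).S := by
    refine sb_of_sub (c.sb hsb) ?_ ?_
    · rintro _ ⟨i, hi, rfl⟩
      exact ⟨i, hi, pull_nd c i⟩
    · rintro s ⟨i, hi, hs⟩
      refine ⟨_, ⟨i, hi, rfl⟩, ?_⟩
      rw [mem_comap, map_mul, map_inv, pull_nd c, hs, inv_mul_cancel]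
      exact one_mem _
  refine
    { sba := ⟨⟨hsb', CD.prime h⟩, fun a ha ha' b hb hb' => hc a b ha ha' hb hb'⟩
      long := ⟨by show π _ ∈ D.N; rw [pull_n0 c]; exact h.long.1, ?_⟩
      char := h.char
      red := h.red
      sq := h.sq
      fix := h.fix
      tr := h.tr
      eps := h.eps
      nondeg := h.nondeg
      inv := fun g => h.inv (π g)
      sing_smul := h.sing_smul
      sing_add := h.sing_add
      sing_self := h.sing_self
      sing_inv := fun g => h.sing_inv (π g)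
      sing_of := h.sing_of
      quadr := fun hq => by
        obtain ⟨h1, h2, h3, Q, h4, h5, h6, h7⟩ := h.quadr hq
        exact ⟨h1, h2, h3, Q, h4, h5, h6, fun g => h7 (π g)⟩
      z0 := h.z0
      le_d := h.le_d
      d_le := h.d_le
      d_le' := h.d_le'
      sing_ee := h.sing_ee
      J_zero := h.J_zero
      J_unit := h.J_unit
      up := fun u hu => h.up _ ((c.mem_liftS hsb.pgroup).1 hu).1
      pinj := fun a b ha hb hab =>
        c.uniq ha hb (h.pinj _ _ (Def.IsP.map ha π) (Def.IsP.map hb π) hab)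
      pts := fun x hx => by
        obtain ⟨r, g, hg⟩ := h.pts x hx
        obtain ⟨e, rfl⟩ := c.surj g
        exact ⟨r, e, hg⟩
      x_mem := fun t => c.liftE_mem hsb.pgroup (h.x_mem t)
      x_comm := fun t u hu => by
        have h1 := c.liftE_conj (CD.isP h (h.x_mem t)) u
        rw [h.x_comm t _ ((c.mem_liftS hsb.pgroup).1 hu).1, mul_inv_cancel_right] at h1
        exact mul_inv_eq_iff_eq_mul.1 h1
      x_eq := fun t => by rw [pull_ρ, hx]; exact h.x_eq t
      x_gen := by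
        refine eq_top_of_map c hE ?_
        rw [Subgroup.map_normalClosure _ _ c.surj, ← Set.range_comp, ← h.x_gen]
        congr 2
        exact funext hx
      shape := h.shape
      span := by
        rw [← h.span]
        congr 1
        exact c.surj.range_comp D.ρ
      norm := fun a a' h1 h2 h3 h4 y => by
        obtain ⟨y', hy'⟩ := h.norm a a' h1 h2 h3 h4 (π y)
        obtain ⟨e, rfl⟩ := c.surj y'
        exact ⟨e, hy'⟩
      rootel := fun a b h1 h2 h3 h4 s => by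
        obtain ⟨g, c', hg, hg'⟩ := h.rootel a b h1 h2 h3 h4 s
        obtain ⟨e, rfl, he⟩ := c.exists_lift hg
        exact ⟨e, c', he, hg'⟩
      refl := fun a b h1 h2 h3 h4 => by
        obtain ⟨n, hn, hn'⟩ := h.refl a b h1 h2 h3 h4
        obtain ⟨e, rfl⟩ := c.surj n
        exact ⟨e, hn, hn'⟩
      tor := fun ε hε g hg => ?_
      surj := fun a => by
        obtain ⟨t, ht, ht'⟩ := h.surj a
        obtain ⟨e, rfl⟩ := c.surj t
        exact ⟨e, ht, ht'⟩ }
  · rintro _ ⟨i, hi, rfl⟩ hr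
    refine h.long.2 _ (CD.nd_mem h hi) fun b hb => ?_
    obtain ⟨b, rfl⟩ := c.surj b
    obtain ⟨a, ha, a', ha', e⟩ := hr b hb
    refine ⟨π a, ha, π a', ha', ?_⟩
    have := congrArg π e
    simpa only [map_mul, pull_nd c, pull_n0 c] using this
  · have h1 : π g ∈ (closure {e : E | IsP p e ∧ D.ρ (π e) *ᵥ (ε • ee D.z) = ε • ee D.z}).map π := by
      refine ((closure_le _).2 ?_ : Subgroup.closure _ ≤ _) (h.tor ε hε (π g) hg)
      rintro a ⟨ha, ha'⟩
      obtain ⟨e, rfl, he⟩ := c.exists_lift ha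
      exact mem_map_of_mem _ (subset_closure ⟨he, ha'⟩)
    obtain ⟨m, hm, hm'⟩ := h1
    obtain ⟨z, hz, rfl⟩ := c.exists_ker hm'.symm
    refine mul_mem hm (closure_mono ?_ (hker z hz))
    rintro e ⟨he, he'⟩
    exact ⟨he, by rw [pull_ρ, mulVec_smul]; exact congrArg _ he'⟩

section Forms
variable {F : Type} [Field F] [Finite F] {D : Dat G F F0 d}

/-- **Lifting** for symplectic, unitary and orthogonal groups -/
theorem CDF.lift (h : CDF p D) (hm : 3 ≤ D.m) : CDF p (pull D p π) := by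
  haveI : Fact p.Prime := ⟨CD.prime h.toCD⟩
  haveI : Finite G := Finite.of_surjective π c.surj
  haveI := h.char
  have hsb := CD.sb h.toCD
  have hd := h.le_d
  have hrk := h.rk_eq
  obtain ⟨x, hx⟩ := exists_XF h.toCD
  have hc : ∀ a b : E, π a ∈ D.B → π a ∈ D.N → π b ∈ D.B → π b ∈ D.N → a * b = b * a := by
    intro a b
    refine comm_cover c hsb (F := F) hE (CD.normalClosure_U h.toCD)
      (Lst := {s | ¬ D.dty ∧ s = D.nd (D.m - 1)}) ?_ ?_ ?_
    · rintro _ ⟨i, hi, rfl⟩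
      by_cases h1 : i + 1 < D.m
      · exact Or.inr ⟨_, _, CDF.node h hx (a := ⟨i, by omega⟩) (b := ⟨i + 1, by omega⟩) rfl h1,
          fun τ hτ hτ' => XF.T_act h.toCD (CDF.ad_succ h rfl h1) hx (h.mon_T τ hτ hτ')⟩
      · by_cases hD : D.dty
        · exact Or.inr ⟨_, _, CDF.nodeD h hx hD (a := ⟨i - 1, by omega⟩) (b := ⟨i, by omega⟩)
            (by simp only; omega) (by simp only; omega), fun τ hτ hτ' => XF.T_act h.toCD
              (CDF.ad_last h (by simp only; omega) (by simp only; omega)) hx (h.mon_T τ hτ hτ')⟩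
        · exact Or.inl ⟨hD, by rw [show i = D.m - 1 by omega]⟩
    · rintro s ⟨-, rfl⟩ s' ⟨-, rfl⟩
      rfl
    · rintro s ⟨hD, rfl⟩
      exact CDF.last h hD (a := ⟨D.m - 1, by omega⟩) (by simp only; omega)
  have hz0 := h.z0
  have hb : (⟨1, by omega⟩ : Fin d).val = D.z.val + 1 := by simp only; omega
  have hb' : (⟨1, by omega⟩ : Fin d).val < D.m := by simp only; omega
  have hn := CDF.node h hx hb hb'
  have hs0 : D.nd D.z.val ∈ D.S := CD.nd_mem h.toCD (by omega)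
  refine
    { toCD := cd_pull c hE h.toCD hc fun z hz =>
        ker_le c hE h.toCD hc (A := (c.st hn.toSt).hom.range) ?_ ?_ ?_ hz
      nl := h.nl
      rk_eq := h.rk_eq
      up' := fun g hg hu => (c.mem_liftS hsb.pgroup).2 ⟨h.up' _ (Def.IsP.map hg π) hu, hg⟩
      mon := fun n hn => h.mon _ hn
      mon_T := fun t ht ht' => h.mon_T _ ht ht'
      mon_nd := fun a b h1 h2 => by rw [pull_ρ, pull_nd c]; exact h.mon_nd a b h1 h2
      mon_last := fun hD a ha => by rw [pull_ρ, pull_nd c]; exact h.mon_last hD a ha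
      mon_last' := fun hD a b h1 h2 => by rw [pull_ρ, pull_nd c]; exact h.mon_last' hD a b h1 h2
      sign := fun hD a ha => by
        obtain ⟨n, hn, hn'⟩ := h.sign hD a ha
        obtain ⟨e, rfl⟩ := c.surj n
        exact ⟨e, hn, hn'⟩
      mon_n0 := by rw [pull_ρ, pull_n0 c]; exact h.mon_n0
      dzero := fun hD => ⟨(h.dzero hD).1, fun u hu =>
        (h.dzero hD).2 _ ((c.mem_liftS hsb.pgroup).1 hu).1⟩
      gen := fun u hu => ?_
      witt := fun W hW => by
        obtain ⟨g, j, hj, hg⟩ := h.witt W hW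
        obtain ⟨e, rfl⟩ := c.surj g
        exact ⟨e, j, hj, hg⟩ }
  · rintro _ ⟨t, rfl⟩
    rw [St.hom_apply, c.map_stH hn.toSt]
    exact ⟨hn.h_B hsb hs0 t.ne_zero, hn.h_N t.ne_zero⟩
  · rintro s' ⟨i, hi, hs'⟩
    by_cases hi0 : i = 0
    · exact Or.inr fun t h1 h2 h3 => node_torus c hsb hn ⟨i, hi, hs'⟩ (by rw [hs', hi0, hz0]) h1 h2 h3
    · exact Or.inl (by rw [hs']; exact (CDF.nd_mem_iff h hm hi).2 hi0)
  · rintro _ ⟨t, rfl⟩ h1
    rw [St.hom_apply, c.map_stH hn.toSt, XF.h_act h.toCD (CDF.ad_succ h hb hb') hx t.ne_zero] at h1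
    have h2 := congrFun h1 D.z
    rw [Pi.smul_apply, ee_self, smul_eq_mul, mul_one] at h2
    rw [show t = 1 from Units.ext h2, map_one]
  · obtain ⟨h1, h2⟩ := (c.mem_liftS hsb.pgroup).1 hu
    set Y := {g : E | g ∈ (pull D p π).U ∧ ∃ a b, a < b ∧ ¬ (pull D p π).Mid a ∧
      ¬ (pull D p π).Mid b ∧ ∀ i j, i ≠ j → ¬ (pull D p π).Pat a b i j → (pull D p π).ρ g i j = 0}
    have h3 : π u ∈ (closure Y).map π := by
      refine ((closure_le _).2 ?_ : Subgroup.closure _ ≤ _) (h.gen h1)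
      rintro g ⟨hg, hg'⟩
      obtain ⟨e, he, rfl⟩ := c.exists_liftS hsb.pgroup hg
      exact mem_map_of_mem _ (subset_closure ⟨he, hg'⟩)
    obtain ⟨m, hm, hm'⟩ := h3
    have h4 : closure Y ≤ liftS p π D.U := (closure_le _).2 fun g hg => hg.1
    rwa [c.uniq h2 ((c.mem_liftS hsb.pgroup).1 (h4 hm)).2 hm'.symm]

end Forms

section Linear
variable {F : Type} [Field F] [Finite F] {D : Dat G (F × F) F0 d}

/-- **Lifting** for linear groups -/
theorem CDL.lift (h : CDL p D) (hm : 2 ≤ D.m) : CDL p (pull D p π) := by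
  haveI : Fact p.Prime := ⟨CD.prime h.toCD⟩
  haveI : Finite G := Finite.of_surjective π c.surj
  haveI : CharP F p := by
    haveI := h.char
    refine (CharP.charP_iff_prime_eq_zero (CD.prime h.toCD)).2 ?_
    rw [← map_natCast (RingHom.fst F F) p, CharP.cast_eq_zero (F × F) p, map_zero]
  have hsb := CD.sb h.toCD
  have hd := h.le_d
  have hrk := h.rk_eq
  obtain ⟨x, hx⟩ := CDL.exists_XL h hm
  have hc : ∀ a b : E, π a ∈ D.B → π a ∈ D.N → π b ∈ D.B → π b ∈ D.N → a * b = b * a := by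
    intro a b
    refine comm_cover c hsb (F := F) hE (CD.normalClosure_U h.toCD) (Lst := ∅) ?_
      (fun s hs => hs.elim) fun s hs => hs.elim
    rintro _ ⟨i, hi, rfl⟩
    exact Or.inr ⟨_, _, CDL.node h hx (a := ⟨i, by omega⟩) (b := ⟨i + 1, by omega⟩) rfl,
      fun τ hτ hτ' => CDL.T_act h hx (fun h1 => by simpa using congrArg Fin.val h1)
        (h.mon_T τ hτ hτ')⟩
  have hz0 := h.z0
  let i1 : Fin d := ⟨1, by omega⟩
  let i2 : Fin d := ⟨D.rk - 1, by omega⟩
  have hb : i1.val = D.z.val + 1 := by simp only [i1]; omega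
  have hb2 : D.z.rev.val = i2.val + 1 := by simp only [i2, Fin.val_rev]; omega
  have hn := CDL.node h hx hb
  have hn2 := CDL.node h hx hb2
  have hs0 : D.nd D.z.val ∈ D.S := CD.nd_mem h.toCD (by omega)
  have hs2 : D.nd i2.val ∈ D.S := CD.nd_mem h.toCD (by simp only [i2]; omega)
  have hT1 : ∀ a ∈ (c.st hn.toSt).hom.range, π a ∈ D.B ∧ π a ∈ D.N := by
    rintro _ ⟨t, rfl⟩
    rw [St.hom_apply, c.map_stH hn.toSt]
    exact ⟨hn.h_B hsb hs0 t.ne_zero, hn.h_N t.ne_zero⟩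
  have hT2 : ∀ a ∈ (c.st hn2.toSt).hom.range, π a ∈ D.B ∧ π a ∈ D.N := by
    rintro _ ⟨t, rfl⟩
    rw [St.hom_apply, c.map_stH hn2.toSt]
    exact ⟨hn2.h_B hsb hs2 t.ne_zero, hn2.h_N t.ne_zero⟩
  refine
    { toCD := cd_pull c hE h.toCD hc fun z hz => ker_le c hE h.toCD hc
        (A := (c.st hn.toSt).hom.range ⊔ (c.st hn2.toSt).hom.range) ?_ ?_ ?_ hz
      il := h.il
      swap := h.swap
      rk_eq := h.rk_eq
      up' := fun g hg hu => (c.mem_liftS hsb.pgroup).2 ⟨h.up' _ (Def.IsP.map hg π) hu, hg⟩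
      mon := fun n hn => h.mon _ hn
      mon_T := fun t ht ht' => h.mon_T _ ht ht'
      mon_nd := fun a b h1 => by
        show Mon1 (D.ρ1 (π _)) _
        rw [pull_nd c]; exact h.mon_nd a b h1
      refl1 := fun a b => by
        obtain ⟨n, hn, hn'⟩ := h.refl1 a b
        obtain ⟨e, rfl⟩ := c.surj n
        exact ⟨e, hn, hn'⟩
      mon_n0 := by
        show Mon1 (D.ρ1 (π _)) _
        rw [pull_n0 c]; exact h.mon_n0
      gen := fun u hu => ?_
      witt := fun W => by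
        obtain ⟨g, j, hj, hg⟩ := h.witt W
        obtain ⟨e, rfl⟩ := c.surj g
        exact ⟨e, j, hj, hg⟩ }
  · intro a ha
    exact (sup_le (fun a ha => hT1 a ha) (fun a ha => hT2 a ha) :
      _ ≤ D.B.comap π ⊓ D.N.comap π) ha
  · rintro s' ⟨i, hi, hs'⟩
    by_cases hi0 : i = 0
    · exact Or.inr fun t h1 h2 h3 => mem_sup_left
        (node_torus c hsb hn ⟨i, hi, hs'⟩ (by rw [hs', hi0, hz0]) h1 h2 h3)
    · by_cases hi1 : i + 1 = D.rk
      · exact Or.inr fun t h1 h2 h3 => mem_sup_right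
          (node_torus c hsb hn2 ⟨i, hi, hs'⟩ (by rw [hs']; congr 1; simp only [i2]; omega) h1 h2 h3)
      · left
        have := (CDL.nd_mem_iff h hi (ε := 1) (Or.inr rfl) (Or.inr rfl)).2
          ⟨fun _ => hi0, fun _ => hi1⟩
        rwa [one_smul, ← hs'] at this
  · intro a ha h1
    obtain ⟨_, ⟨t, rfl⟩, _, ⟨t', rfl⟩, rfl⟩ := mem_sup_of_comm
      (fun a ha m hm => hc a m (hT1 a ha).1 (hT1 a ha).2 (hT2 m hm).1 (hT2 m hm).2) ha
    have n1 : D.z ≠ i1 := fun h2 => by rw [h2] at hb; omega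
    have n2 : i2 ≠ D.z.rev := fun h2 => by rw [h2] at hb2; omega
    have n3 : D.z ≠ i2 := fun h2 => by
      have := congrArg Fin.val h2
      simp only [i2] at this
      omega
    have n4 : D.z ≠ D.z.rev := fun h2 => by
      have := congrArg Fin.val h2
      rw [Fin.val_rev] at this
      omega
    obtain ⟨a1, -, -⟩ := CDL.h_act h hx n1 t.ne_zero
    obtain ⟨b1, b2, b3⟩ := CDL.h_act h hx n2 t'.ne_zero
    rw [map_mul, St.hom_apply, St.hom_apply, c.map_stH hn.toSt, c.map_stH hn2.toSt] at h1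
    have h2 := congrArg Prod.fst (congrFun h1 D.z)
    rw [mulVec_ee, ← ρ1_apply, ← mulVec_ee (D.ρ1 _), rho_mulVec, b3 _ n3 n4, a1, Pi.smul_apply,
      ee_self, ee_self, smul_eq_mul, mul_one] at h2
    have ht : t = 1 := Units.ext h2
    rw [ht, Units.val_one, hn.toSt.h_one, one_mul] at h1
    have hmon : Mon1 (D.ρ1 (stH (x i2 D.z.rev) (x D.z.rev i2) t')) 1 := by
      intro k
      by_cases k1 : k = i2
      · rw [k1]; exact ⟨t', b1⟩
      · by_cases k2 : k = D.z.rev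
        · rw [k2]; exact ⟨t'⁻¹, by rw [b2, Units.val_inv_eq_inv_val]; rfl⟩
        · exact ⟨1, by rw [b3 k k1 k2, Units.val_one, one_smul]; rfl⟩
    obtain ⟨e, he, he'⟩ := CDL.mon2 h hmon D.z
    simp only [Equiv.Perm.coe_one, id, Fin.rev_rev] at he he'
    have h3 := congrArg Prod.snd (congrFun h1 D.z)
    rw [mulVec_ee, ← ρ2_apply, entry_of_ee he, if_pos rfl, ee_self] at h3
    have h4 := CDL.J2_ne h D.z.rev
    rw [Fin.rev_rev] at h4
    rw [entry_of_ee b2, if_pos rfl, h3, Prod.snd_one, mul_one] at he'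
    have ht' : t' = 1 := Units.ext (inv_eq_one.1 (mul_right_cancel₀ h4 (he'.trans (one_mul _).symm)))
    rw [ht, ht', map_one, map_one, one_mul]
  · obtain ⟨h1, h2⟩ := (c.mem_liftS hsb.pgroup).1 hu
    set Y := {g : E | g ∈ (pull D p π).U ∧ ∃ a b, a < b ∧
      ∀ i j, i ≠ j → ¬ (i = a ∧ j = b) → (pull D p π).ρ1 g i j = 0}
    have h3 : π u ∈ (closure Y).map π := by
      refine ((closure_le _).2 ?_ : Subgroup.closure _ ≤ _) (h.gen h1)
      rintro g ⟨hg, hg'⟩
      obtain ⟨e, he, rfl⟩ := c.exists_liftS hsb.pgroup hg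
      exact mem_map_of_mem _ (subset_closure ⟨he, hg'⟩)
    obtain ⟨m, hm, hm'⟩ := h3
    have h4 : closure Y ≤ liftS p π D.U := (closure_le _).2 fun g hg => hg.1
    rwa [c.uniq h2 ((c.mem_liftS hsb.pgroup).1 (h4 hm)).2 hm'.symm]

end Linear

omit c hE in
/-- **Fibre products.** -/
theorem exists_fibre {GX Y EY : Type u} [Group GX] [Group Y] [Group EY] [Finite GX] [Finite EY]
    (hp : p.Prime) (f : GX →* Y) {πY : EY →* Y} (cY : CP p πY)
    (hX : closure {g : GX | IsP p g} = ⊤) :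
    ∃ (EX : Type u) (_ : Group EX) (_ : Finite EX) (π : EX →* GX) (ψ : EX →* EY), CP p π ∧
      closure {e : EX | IsP p e} = ⊤ ∧ (∀ e, πY (ψ e) = f (π e)) ∧
        ∀ e, π e = 1 → ψ e = 1 → e = 1 := by
  haveI : Fact p.Prime := ⟨hp⟩
  let W : Subgroup (GX × EY) := (f.comp (MonoidHom.fst GX EY)).eqLocus (πY.comp (MonoidHom.snd GX EY))
  have hW : ∀ w : GX × EY, w ∈ W ↔ f w.1 = πY w.2 := fun w => Iff.rfl
  have hcp : ∀ M : Subgroup (GX × EY), M ≤ W → Function.Surjective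
      ((MonoidHom.fst GX EY).comp M.subtype) → CP p ((MonoidHom.fst GX EY).comp M.subtype) := by
    intro M hM hs
    have hk : ∀ z : M, z.1.1 = 1 → πY z.1.2 = 1 := fun z hz => by
      rw [← (hW _).1 (hM z.2), hz, map_one]
    refine ⟨hs, fun z hz g => Subtype.ext (Prod.ext ?_ (cY.central _ (hk z hz) _)),
      fun z hz h1 => Subtype.ext (Prod.ext hz (cY.pp _ (hk z hz) ?_))⟩
    · show z.1.1 * g.1.1 = g.1.1 * z.1.1
      rw [show z.1.1 = 1 from hz, one_mul, mul_one]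
    · exact congrArg (fun w : M => w.1.2) h1
  have cW := hcp W le_rfl fun g => by
    obtain ⟨e, he⟩ := cY.surj (f g)
    exact ⟨⟨(g, e), (hW _).2 he.symm⟩, rfl⟩
  let M : Subgroup (GX × EY) := closure {w | w ∈ W ∧ IsP p w}
  have hM : M ≤ W := (closure_le _).2 fun w hw => hw.1
  refine ⟨M, inferInstance, inferInstance, (MonoidHom.fst GX EY).comp M.subtype,
    (MonoidHom.snd GX EY).comp M.subtype, hcp M hM ?_, ?_, fun e => ((hW _).1 (hM e.2)).symm,
    fun e h1 h2 => Subtype.ext (Prod.ext h1 h2)⟩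
  · rw [← MonoidHom.range_eq_top, eq_top_iff, ← hX, closure_le]
    intro g hg
    obtain ⟨e, he, he'⟩ := cW.exists_lift hg
    exact ⟨⟨e, subset_closure ⟨e.2, Def.IsP.map he' W.subtype⟩⟩, he⟩
  · rw [eq_top_iff, ← closure_closure_coe_preimage (k := {w | w ∈ W ∧ IsP p w})]
    refine closure_mono ?_
    rintro w ⟨-, k, hk⟩
    exact ⟨k, Subtype.ext hk⟩

end Vale.Agent.P183K.Lift
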