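import Vale.Agent.P183K.Lift.Base

/-!
# P183K: block matrices, Jordan pairs, rank one tori (helper2)
-/

set_option autoImplicit false
set_option linter.all false

namespace Vale.Agent.P183K.Lift

open Matrix Subgroup Vale.Agent.P240.H195 Vale.Agent.P183CR Vale.Agent.P183M
open Vale.Agent.P183K.Def (St stW stH Node Ms CP liftS liftE)

universe u

/-! ### Jordan pairs -/

section JP
variable {F : Type} [Field F] {M : Type} [Ring M]

/-- a pair of additive maps with the relations of `s E₁₂`, `s E₂₁` -/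
structure JP (a b : F → M) : Prop where
  aadd : ∀ s t, a (s + t) = a s + a t
  badd : ∀ s t, b (s + t) = b s + b t
  aa : ∀ s t, a s * a t = 0
  bb : ∀ s t, b s * b t = 0
  aba : ∀ s t u, a s * b t * a u = a (s * t * u)
  bab : ∀ s t u, b s * a t * b u = b (s * t * u)

variable {a b : F → M} (h : JP a b)
include h

lemma JP.a_neg (s : F) : a (-s) = -a s := by
  have h0 : a 0 = 0 := by
    have := h.aadd 0 0
    rw [add_zero] at this
    exact left_eq_add.1 this
  rw [eq_neg_iff_add_eq_zero, ← h.aadd, neg_add_cancel, h0]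

lemma JP.b_neg (s : F) : b (-s) = -b s := by
  have h0 : b 0 = 0 := by
    have := h.badd 0 0
    rw [add_zero] at this
    exact left_eq_add.1 this
  rw [eq_neg_iff_add_eq_zero, ← h.badd, neg_add_cancel, h0]

lemma JP.ba (u v : F) : b u * a v = b (u * v) * a 1 := by
  have h1 := h.aba 1 v 1
  have h2 := h.bab u 1 v
  rw [one_mul, mul_one] at h1
  rw [mul_one] at h2
  rw [← h1, ← h2]
  simp only [mul_assoc]

lemma JP.rel {t : F} (ht : t ≠ 0) (s : F) :
    (1 + a t) * (1 + b (-t⁻¹)) * (1 + a t) * (1 + a s) =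
      (1 + b (-(t⁻¹ ^ 2 * s))) * ((1 + a t) * (1 + b (-t⁻¹)) * (1 + a t)) := by
  have r1 := h.aa t t
  have r2 := h.aa t s
  have r3 : a t * b (-t⁻¹) * a t = -a t := by
    rw [h.aba, ← h.a_neg]; congr 1; field_simp
  have r4 : a t * b (-t⁻¹) * a s = -a s := by
    rw [h.aba, ← h.a_neg]; congr 1; field_simp
  have r5 := h.bb (-(t⁻¹ ^ 2 * s)) (-t⁻¹)
  have r6 : b (-(t⁻¹ ^ 2 * s)) * a t * b (-t⁻¹) = -b (-(t⁻¹ ^ 2 * s)) := by
    rw [h.bab, ← h.b_neg]; congr 1; field_simp
  have r7 : b (-t⁻¹) * a s = b (-(t⁻¹ ^ 2 * s)) * a t := by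
    rw [h.ba, h.ba _ t]; congr 2; field_simp
  generalize a t = A at *
  generalize a s = A' at *
  generalize b (-t⁻¹) = B at *
  generalize b (-(t⁻¹ ^ 2 * s)) = B' at *
  have w : (1 + A) * (1 + B) * (1 + A) = 1 + A + B + A * B + B * A := by
    have : (1 + A) * (1 + B) * (1 + A) = 1 + A + B + A * B + B * A + (A + A * A + A * B * A) := by
      noncomm_ring
    rw [this, r1, r3]
    abel
  rw [w]
  have e1 : (1 + A + B + A * B + B * A) * (1 + A') =
      1 + A + B + A * B + B * A + (A' + A * A' + B * A' + A * B * A' + B * (A * A')) := by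
    noncomm_ring
  have e2 : (1 + B') * (1 + A + B + A * B + B * A) =
      1 + A + B + A * B + B * A + (B' + B' * A + B' * B + B' * A * B + B' * B * A) := by
    noncomm_ring
  rw [e1, e2, r2, r4, r5, r6, r7]
  simp

omit h in
lemma isP_mul {G : Type u} [Group G] {p : ℕ} {g g' : G} (hg : IsP p g) (hg' : IsP p g')
    (hc : g * g' = g' * g) : IsP p (g * g') := by
  obtain ⟨k, hk⟩ := hg
  obtain ⟨l, hl⟩ := hg'
  refine ⟨k + l, ?_⟩
  rw [Commute.mul_pow hc, pow_add, pow_mul, hk, one_pow, mul_comm (p ^ k), pow_mul, hl, one_pow,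
    one_mul]

/-- Steinberg's relations for the `p`-elements above a Jordan pair -/
theorem JP.st {G : Type u} [Group G] {p : ℕ} {μ : G →* M}
    (hinj : ∀ g g', IsP p g → IsP p g' → μ g = μ g' → g = g') {x y : F → G}
    (hx : ∀ s, IsP p (x s) ∧ μ (x s) = 1 + a s) (hy : ∀ s, IsP p (y s) ∧ μ (y s) = 1 + b s) :
    St x y := by
  have hadd : ∀ {x : F → G} {a : F → M}, (∀ s t, a (s + t) = a s + a t) → (∀ s t, a s * a t = 0) →
      (∀ s, IsP p (x s) ∧ μ (x s) = 1 + a s) → ∀ s t, x (s + t) = x s * x t := by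
    intro x a h1 h2 hx
    have h3 : ∀ s t, μ (x s * x t) = μ (x (s + t)) := fun s t => by
      rw [map_mul, (hx _).2, (hx _).2, (hx _).2, h1, add_mul, mul_add, mul_add, h2]
      simp only [one_mul, mul_one, add_zero]
      abel
    intro s t
    have h4 : x s * x t * (x s)⁻¹ = x t := by
      refine hinj _ _ (Def.IsP.conj (hx t).1 _) (hx t).1 ?_
      rw [map_mul, h3, add_comm, ← h3, ← map_mul, mul_inv_cancel_right]
    exact hinj _ _ (hx _).1 (isP_mul (hx s).1 (hx t).1 (mul_inv_eq_iff_eq_mul.1 h4)) (h3 s t).symm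
  refine ⟨hadd h.aadd h.aa hx, hadd h.badd h.bb hy, fun t ht s => ?_⟩
  refine hinj _ _ (Def.IsP.conj (hx s).1 _) (hy _).1 ?_
  have h1 : μ (stW x y t * x s) = μ (y (-(t⁻¹ ^ 2 * s)) * stW x y t) := by
    unfold stW
    simp only [map_mul, (hx _).2, (hy _).2]
    exact h.rel ht s
  rw [map_mul, h1, ← map_mul, mul_inv_cancel_right]

end JP

lemma plane {R : Type} [CommRing R] {d : ℕ} {X Y : Matrix (Fin d) (Fin d) R} {e f : Fin d → R}
    {t u : R} (hXe : X *ᵥ e = e) (hXf : X *ᵥ f = f + t • e) (hYe : Y *ᵥ e = e + u • f)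
    (hYf : Y *ᵥ f = f) (htu : t * u = -1) :
    (X * Y * X) *ᵥ e = u • f ∧ (X * Y * X) *ᵥ f = t • e := by
  constructor
  · rw [← mulVec_mulVec, ← mulVec_mulVec, hXe, hYe, mulVec_add, mulVec_smul, hXe, hXf, smul_add,
      smul_smul, mul_comm u, htu, neg_one_smul]
    abel
  · rw [← mulVec_mulVec, ← mulVec_mulVec, hXf, mulVec_add, mulVec_smul, hYe, hYf, smul_add,
      smul_smul, htu, neg_one_smul, show f + (t • e + -f) = t • e by abel, mulVec_smul, hXe]

lemma single_mulVec_ee {R : Type} [CommRing R] {d : ℕ} (a b k : Fin d) (c : R) :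
    single a b c *ᵥ (ee k : Fin d → R) = if k = b then c • ee a else 0 := by
  funext i
  rw [mulVec_ee, single_apply]
  split_ifs with h1 h2 h2
  · rw [Pi.smul_apply, ← h1.1, ee_self, smul_eq_mul, mul_one]
  · exact absurd h1.2.symm h2
  · rw [Pi.smul_apply, ee_ne (fun h3 => h1 ⟨h3.symm, h2.symm⟩), smul_zero]
  · rfl

lemma conj_single {R : Type} [CommRing R] {d : ℕ} {P P' : Matrix (Fin d) (Fin d) R}
    {a b a' b' : Fin d} {α β : R} (ha : P *ᵥ ee a = α • ee a')
    (hb : ∀ j, P' b j = if j = b' then β else 0) (c : R) :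
    P * single a b c * P' = single a' b' (α * c * β) := by
  ext i j
  rw [mul_apply, Finset.sum_eq_single b, mul_single_apply_same, hb, entry_of_ee ha, single_apply]
  · by_cases h1 : i = a'
    · by_cases h2 : j = b'
      · rw [if_pos h1, if_pos h2, if_pos ⟨h1.symm, h2.symm⟩]
      · rw [if_neg h2, mul_zero, if_neg fun h3 => h2 h3.2.symm]
    · rw [if_neg h1, zero_mul, zero_mul, if_neg fun h3 => h1 h3.1.symm]
  · intro l _ hl
    rw [mul_single_apply_of_ne _ _ _ _ _ hl, zero_mul]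
  · intro h1
    exact absurd (Finset.mem_univ _) h1

lemma perm_apply_inv {α : Type} (w : Equiv.Perm α) (a : α) : w (w⁻¹ a) = a :=
  w.apply_symm_apply a

lemma perm_inv_apply {α : Type} (w : Equiv.Perm α) (a : α) : w⁻¹ (w a) = a :=
  w.symm_apply_apply a

/-! ### block matrices -/

section Block
variable {F : Type} [Field F] {d : ℕ}

/-- block unitriangular -/
def UpB (bl : Fin d → ℕ) (M : Matrix (Fin d) (Fin d) F) : Prop :=
  ∀ i j, bl j ≤ bl i → M i j = (1 : Matrix (Fin d) (Fin d) F) i j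

/-- block monomial -/
def BM (bl : Fin d → ℕ) (M : Matrix (Fin d) (Fin d) F) (w : Equiv.Perm (Fin d)) : Prop :=
  ∀ i j, M i j ≠ 0 → bl i = bl (w j)

/-- compatible with the blocks -/
def Cw (bl : Fin d → ℕ) (w : Equiv.Perm (Fin d)) : Prop :=
  ∀ a b, bl a = bl b → bl (w a) = bl (w b)

variable {G : Type u} [Group G]

/-- block monomial group elements -/
def GM (μ : G →* Matrix (Fin d) (Fin d) F) (bl : Fin d → ℕ) (g : G) (w : Equiv.Perm (Fin d)) :
    Prop := BM bl (μ g) w ∧ BM bl (μ g⁻¹) w⁻¹ ∧ Cw bl w ∧ Cw bl w⁻¹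

variable {μ : G →* Matrix (Fin d) (Fin d) F} {bl : Fin d → ℕ}

lemma BM.mul {M M' : Matrix (Fin d) (Fin d) F} {w w' : Equiv.Perm (Fin d)} (h : BM bl M w)
    (h' : BM bl M' w') (hw : Cw bl w) : BM bl (M * M') (w * w') := by
  intro i j hij
  rw [mul_apply] at hij
  obtain ⟨k, -, hk⟩ := Finset.exists_ne_zero_of_sum_ne_zero hij
  rw [h i k (left_ne_zero_of_mul hk), hw _ _ (h' k j (right_ne_zero_of_mul hk))]
  rfl

lemma Cw.mul {w w' : Equiv.Perm (Fin d)} (h : Cw bl w) (h' : Cw bl w') : Cw bl (w * w') :=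
  fun a b hab => h _ _ (h' a b hab)

lemma GM.inv {g : G} {w : Equiv.Perm (Fin d)} (h : GM μ bl g w) : GM μ bl g⁻¹ w⁻¹ :=
  ⟨h.2.1, by rw [inv_inv, inv_inv]; exact h.1, h.2.2.2, by rw [inv_inv]; exact h.2.2.1⟩

lemma GM.mul {g g' : G} {w w' : Equiv.Perm (Fin d)} (h : GM μ bl g w) (h' : GM μ bl g' w') :
    GM μ bl (g * g') (w * w') :=
  ⟨by rw [map_mul]; exact h.1.mul h'.1 h.2.2.1,
    by rw [_root_.mul_inv_rev, _root_.mul_inv_rev, map_mul]; exact h'.2.1.mul h.2.1 h'.2.2.2,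
    h.2.2.1.mul h'.2.2.1, by rw [_root_.mul_inv_rev]; exact h'.2.2.2.mul h.2.2.2⟩

lemma GM.conj {g u : G} {w : Equiv.Perm (Fin d)} (h : GM μ bl g w)
    (hu : ∀ k l, bl (w l) ≤ bl (w k) → μ u k l = (1 : Matrix (Fin d) (Fin d) F) k l) :
    UpB bl (μ (g * u * g⁻¹)) := by
  intro i j hij
  have e : μ (g * u * g⁻¹) = 1 + μ g * (μ u - 1) * μ g⁻¹ := by
    rw [mul_sub, sub_mul, mul_one, ← map_mul μ g g⁻¹, mul_inv_cancel, map_one, map_mul, map_mul]
    abel
  rw [e, Matrix.add_apply, add_eq_left, mul_apply]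
  refine Finset.sum_eq_zero fun l _ => ?_
  rw [mul_apply, Finset.sum_mul]
  refine Finset.sum_eq_zero fun k _ => ?_
  by_contra hne
  have h1 := h.1 i k (left_ne_zero_of_mul (left_ne_zero_of_mul hne))
  have h2 := h.2.2.1 _ _ (h.2.1 l j (right_ne_zero_of_mul hne))
  rw [perm_apply_inv] at h2
  apply right_ne_zero_of_mul (left_ne_zero_of_mul hne)
  rw [Matrix.sub_apply, hu k l (by rw [← h1, h2]; exact hij), sub_self]

lemma Mon1.inv {R : Type} [CommRing R] {μ : G →* Matrix (Fin d) (Fin d) R} {g : G}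
    {w : Equiv.Perm (Fin d)} (h : Mon1 (μ g) w) : Mon1 (μ g⁻¹) w⁻¹ := by
  intro a
  obtain ⟨c, hc⟩ := h (w⁻¹ a)
  rw [perm_apply_inv] at hc
  refine ⟨c⁻¹, ?_⟩
  conv_rhs => rw [← rho_inv_mulVec μ g (ee (w⁻¹ a)), hc, mulVec_smul, smul_smul, Units.inv_mul,
    one_smul]

lemma Mon1.bm {M : Matrix (Fin d) (Fin d) F} {w : Equiv.Perm (Fin d)} (h : Mon1 M w) :
    BM bl M w := by
  intro i j hij
  obtain ⟨c, hc⟩ := h j
  rw [entry_of_ee hc] at hij
  split_ifs at hij with h1
  · rw [h1]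
  · exact absurd rfl hij

lemma Mon1.gm {g : G} {w : Equiv.Perm (Fin d)} (h : Mon1 (μ g) w) : GM μ Fin.val g w :=
  ⟨Mon1.bm h, Mon1.bm (Mon1.inv h), fun a b hab => by rw [Fin.ext hab],
    fun a b hab => by rw [Fin.ext hab]⟩

/-- a split BN-pair in block matrices -/
structure MB (p : ℕ) (B N U : Subgroup G) (S : Set G) (μ : G →* Matrix (Fin d) (Fin d) F)
    (bl : Fin d → ℕ) : Prop where
  sb : SB p B N U S
  prime : p.Prime
  up : ∀ u ∈ U, UpB bl (μ u)
  up' : ∀ g, IsP p g → UpB bl (μ g) → g ∈ U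
  pinj : ∀ a b, IsP p a → IsP p b → μ a = μ b → a = b
  monT : ∀ t ∈ B, t ∈ N → GM μ bl t 1

variable {p : ℕ} {B N U : Subgroup G} {S : Set G} (h : MB p B N U S μ bl)
include h

lemma MB.conj_mem {g u : G} {w : Equiv.Perm (Fin d)} (hg : GM μ bl g w) (hp : IsP p u)
    (hu : ∀ k l, bl (w l) ≤ bl (w k) → μ u k l = (1 : Matrix (Fin d) (Fin d) F) k l) :
    g * u * g⁻¹ ∈ U := h.up' _ (Def.IsP.conj hp g) (hg.conj hu)

lemma MB.mem_T [Finite G] {g : G} (hg : GM μ bl g 1) : g ∈ B ∧ g ∈ N := by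
  have hB : g ∈ B := h.sb.mem_B_of_norm h.prime fun u hu => by
    have := h.conj_mem hg.inv (h.sb.exists_pow hu) (h.up u hu)
    rwa [inv_inv] at this
  refine ⟨hB, ?_⟩
  obtain ⟨u, hu, t, ht, ht', rfl⟩ := h.sb.split g hB
  have h1 := (hg.mul (h.monT t ht ht').inv).1
  rw [mul_inv_cancel_right] at h1
  have h2 : u = 1 := by
    refine h.pinj _ _ (h.sb.exists_pow hu) (Def.IsP.one p) ?_
    rw [map_one]
    ext i j
    by_cases hij : bl j ≤ bl i
    · exact h.up u hu i j hij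
    · have h3 : i ≠ j := by rintro rfl; exact hij le_rfl
      rw [one_apply_ne h3]
      by_contra h4
      exact hij (h1 i j h4).ge
  rw [h2, one_mul]
  exact ht'

lemma MB.node [Finite G] {s : G} (hs : s ∈ S) {w : Equiv.Perm (Fin d)} (hw : GM μ bl s w)
    {x y : F → G} (hst : St x y) (hx : ∀ a, x a ∈ U) (hW : ∀ t, t ≠ 0 → GM μ bl (stW x y t) w)
    {Y : Set G} (hY : U ≤ closure Y) (hY' : ∀ g ∈ Y, g ∈ Kg U s ∨ ∃ c, g = x c) :
    Node B N U s x y := by
  have key : ∀ t, t ≠ 0 → s⁻¹ * stW x y t ∈ B ∧ s⁻¹ * stW x y t ∈ N := fun t ht => by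
    have := hw.inv.mul (hW t ht)
    rw [inv_mul_cancel] at this
    exact h.mem_T this
  refine ⟨hst, hx, fun u hu => ?_, fun t ht => ?_, fun t ht => (key t ht).1⟩
  · let H : Subgroup G :=
      { carrier := {u | ∃ a, (x a)⁻¹ * u ∈ Kg U s}
        one_mem' := ⟨0, by rw [hst.x_zero, inv_one, one_mul]; exact one_mem _⟩
        mul_mem' := by
          rintro u v ⟨a, ha⟩ ⟨b, hb⟩
          refine ⟨a + b, ?_⟩
          have := mul_mem (h.sb.Kg_conj' hs (le_Par (h.sb.le (hx b))) ha) hb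
          rw [hst.xadd]
          convert this using 1
          group
        inv_mem' := by
          rintro u ⟨a, ha⟩
          refine ⟨-a, ?_⟩
          have := h.sb.Kg_conj hs (le_Par (h.sb.le (hx a))) (inv_mem ha)
          rw [hst.x_neg]
          convert this using 1
          group }
    refine ((closure_le H).2 fun g hg => ?_) (hY hu)
    rcases hY' g hg with h1 | ⟨c, rfl⟩
    · exact ⟨0, by rwa [hst.x_zero, inv_one, one_mul]⟩
    · exact ⟨c, by rw [inv_mul_cancel]; exact one_mem _⟩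
  · have := mul_mem (h.sb.sub s hs) (key t ht).2
    rwa [mul_inv_cancel_left] at this

end Block

/-! ### rank one tori -/

section Last
variable {L : Type u} [Group L] {r : ℕ} {B N U : Subgroup L} {S : Set L} [Finite L]
  (h : SB r B N U S) (hr : r.Prime)
include h hr

lemma comm_Ms {s τ t : L} (hs : s ∈ S) (hτB : τ ∈ B) (hτN : τ ∈ N)
    (h1 : ∀ u ∈ U, τ * u * τ⁻¹ * u⁻¹ ∈ Kg U s)
    (h2 : ∀ u ∈ U, (s⁻¹ * τ * s) * u * (s⁻¹ * τ * s)⁻¹ * u⁻¹ ∈ Kg U s)
    (htN : t ∈ N) (ht : t ∈ Ms U s) : τ * t = t * τ := by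
  let H : Subgroup L :=
    { carrier := {m | m ∈ Par B s ∧ τ * m * τ⁻¹ * m⁻¹ ∈ Kg U s}
      one_mem' := ⟨one_mem _, by simpa using one_mem (Kg U s)⟩
      mul_mem' := by
        rintro a b ⟨ha, ha'⟩ ⟨hb, hb'⟩
        refine ⟨mul_mem ha hb, ?_⟩
        have := mul_mem ha' (h.Kg_conj hs ha hb')
        convert this using 1
        group
      inv_mem' := by
        rintro a ⟨ha, ha'⟩
        refine ⟨inv_mem ha, ?_⟩
        have := h.Kg_conj' hs ha (inv_mem ha')
        convert this using 1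
        group }
  have hle : Ms U s ≤ H := by
    refine Def.Ms_le (fun u hu => ⟨le_Par (h.le hu), h1 u hu⟩) fun u hu => ⟨Def.Ms_le_Par h s
      (Def.conj_mem_Ms hu), ?_⟩
    have := h.Kg_conj hs self_mem_Par (h2 u hu)
    convert this using 1
    group
  have h3 := Def.U_inf_N h hr (hle ht).2.1
    (mul_mem (mul_mem (mul_mem hτN htN) (inv_mem hτN)) (inv_mem htN))
  calc τ * t = (τ * t * τ⁻¹ * t⁻¹) * (t * τ) := by group
    _ = t * τ := by rw [h3, one_mul]

lemma comm_last {s : L} (hs : s ∈ S) {K : Type} [Field K] (α : L → K)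
    (hα : ∀ a ∈ B, a ∈ N → ∀ b ∈ B, b ∈ N → α (a * b) = α a * α b) (hα1 : α 1 = 1)
    (hker : ∀ τ ∈ B, τ ∈ N → α τ = 1 → (∀ u ∈ U, τ * u * τ⁻¹ * u⁻¹ ∈ Kg U s) ∧
      ∀ u ∈ U, (s⁻¹ * τ * s) * u * (s⁻¹ * τ * s)⁻¹ * u⁻¹ ∈ Kg U s)
    {a b : L} (ha : a ∈ B ⊓ N ⊓ Ms U s) (hb : b ∈ B ⊓ N ⊓ Ms U s) : a * b = b * a := by
  let f : (B ⊓ N ⊓ Ms U s : Subgroup L) →* K :=
    { toFun := fun x => α x
      map_one' := hα1
      map_mul' := fun x y => hα _ x.2.1.1 x.2.1.2 _ y.2.1.1 y.2.1.2 }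
  haveI : Finite f.toHomUnits.range := Finite.of_surjective _ f.toHomUnits.rangeRestrict_surjective
  have := commutative_of_cyclic_center_quotient f.toHomUnits.rangeRestrict (by
    intro x hx
    have hx' : α x = 1 := congrArg (fun z : f.toHomUnits.range => ((z : Kˣ) : K)) hx
    obtain ⟨h1, h2⟩ := hker _ x.2.1.1 x.2.1.2 hx'
    rw [mem_center_iff]
    intro y
    exact Subtype.ext (comm_Ms h hr hs x.2.1.1 x.2.1.2 h1 h2 y.2.1.2 y.2.2).symm) ⟨a, ha⟩ ⟨b, hb⟩
  exact congrArg Subtype.val this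

end Last

/-! ### abelian groups of `2 × 2` matrices without eigenvectors -/

section Two
variable {F : Type} [Field F]

/-- A commuting family of `2 × 2` matrices, each scalar or without eigenvector, has a
multiplicative function to a field which detects the identity. -/
lemma cyc2 {Γ : Type u} [Group Γ] (M : Γ →* Matrix (Fin 2) (Fin 2) F)
    (hc : ∀ a b, M a * M b = M b * M a)
    (he : ∀ a, (∃ c : F, M a = c • 1) ∨ ∀ (v : Fin 2 → F) (c : F), M a *ᵥ v = c • v → v = 0) :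
    ∃ α : Γ →* AlgebraicClosure F, ∀ a, α a = 1 → M a = 1 := by
  let K := AlgebraicClosure F
  let ι : F →+* K := algebraMap F K
  have main : ∀ (x y : K), (∀ v : Fin 2 → F, ι (v 0) * x + ι (v 1) * y = 0 → v = 0) →
      (∀ a, ∃ l : K, ∀ v : Fin 2 → F, ι ((M a *ᵥ v) 0) * x + ι ((M a *ᵥ v) 1) * y =
        l * (ι (v 0) * x + ι (v 1) * y)) → ∃ α : Γ →* K, ∀ a, α a = 1 → M a = 1 := by
    intro x y hinj hl
    choose l hl using hl
    have h0 : ι ((ee 0 : Fin 2 → F) 0) * x + ι ((ee 0 : Fin 2 → F) 1) * y ≠ 0 := fun h1 => by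
      have := congrFun (hinj _ h1) 0
      rw [ee_self] at this
      exact one_ne_zero this
    refine ⟨⟨⟨l, ?_⟩, fun a b => ?_⟩, fun a ha => ext_ee fun j => ?_⟩
    · refine mul_right_cancel₀ h0 ?_
      rw [← hl, map_one, one_mulVec, one_mul]
    · refine mul_right_cancel₀ h0 ?_
      show l (a * b) * _ = l a * l b * _
      rw [← hl, map_mul, ← mulVec_mulVec, hl, hl, mul_assoc]
    · have h1 := hl a (ee j)
      rw [show l a = 1 from ha, one_mul] at h1
      rw [one_mulVec, ← sub_eq_zero]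
      refine hinj _ ?_
      rw [Pi.sub_apply, Pi.sub_apply, map_sub, map_sub]
      linear_combination h1
  by_cases hs : ∀ a, ∃ c : F, M a = c • 1
  · choose c hc using hs
    have hinj : ∀ {x y : F}, x • (1 : Matrix (Fin 2) (Fin 2) F) = y • 1 → x = y := fun hxy => by
      simpa using congrFun (congrFun hxy 0) 0
    refine ⟨⟨⟨fun a => ι (c a), ?_⟩, fun a b => ?_⟩, fun a ha => ?_⟩
    · rw [show c 1 = 1 from hinj (by rw [← hc, map_one, one_smul]), map_one]
    · show ι (c (a * b)) = ι (c a) * ι (c b)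
      rw [← map_mul, show c (a * b) = c a * c b from hinj (by
        rw [← hc, map_mul, hc a, hc b, smul_mul_smul_comm, one_mul])]
    · have : c a = 1 := ι.injective (by rw [map_one]; exact ha)
      rw [hc, this, one_smul]
  · push Not at hs
    obtain ⟨a0, ha0⟩ := hs
    have hS := (he a0).resolve_left fun ⟨c, hc⟩ => ha0 c hc
    set Sm := M a0 with hSm
    have h10 : Sm 1 0 ≠ 0 := fun h1 => by
      have := hS (ee 0) (Sm 0 0) (by
        funext i
        rw [mulVec_ee]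
        fin_cases i
        · simp [ee_apply]
        · simp [ee_apply, h1])
      have h2 := congrFun this 0
      rw [ee_self] at h2
      exact one_ne_zero h2
    open Polynomial in
    obtain ⟨ω, hω⟩ := IsAlgClosed.exists_root
      (X ^ 2 - C (ι (Sm 0 0 + Sm 1 1)) * X + C (ι (Sm 0 0 * Sm 1 1 - Sm 0 1 * Sm 1 0)) : K[X]) (by
        have : (X ^ 2 - C (ι (Sm 0 0 + Sm 1 1)) * X + C (ι (Sm 0 0 * Sm 1 1 - Sm 0 1 * Sm 1 0)) :
          K[X]).degree = 2 := by compute_degree!
        rw [this]; decide)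
    simp only [Polynomial.IsRoot, Polynomial.eval_add, Polynomial.eval_sub, Polynomial.eval_mul,
      Polynomial.eval_pow, Polynomial.eval_X, Polynomial.eval_C, map_add, map_sub, map_mul] at hω
    refine main (ι (Sm 1 0)) (ω - ι (Sm 0 0)) (fun v hv => ?_) fun a => ?_
    · by_cases h1 : v 1 = 0
      · rw [h1, map_zero, zero_mul, add_zero, ← map_mul, map_eq_zero] at hv
        funext i
        fin_cases i
        · exact (mul_eq_zero.1 hv).resolve_right h10
        · exact h1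
      · exfalso
        have h2 : ω = ι (Sm 0 0 - v 0 * Sm 1 0 / v 1) := by
          have h3 : ι (v 1) ≠ 0 := (map_ne_zero ι).2 h1
          rw [map_sub, map_div₀, map_mul, eq_sub_iff_add_eq, ← eq_sub_iff_add_eq', div_eq_iff h3]
          linear_combination hv
        set e := Sm 0 0 - v 0 * Sm 1 0 / v 1
        have h3 : e ^ 2 - (Sm 0 0 + Sm 1 1) * e + (Sm 0 0 * Sm 1 1 - Sm 0 1 * Sm 1 0) = 0 := by
          apply ι.injective
          simp only [map_add, map_sub, map_mul, map_pow, map_zero, ← h2]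
          exact hω
        have h4 := hS ![e - Sm 1 1, Sm 1 0] e (by
          funext i
          fin_cases i
          · simp [mulVec, dotProduct, Fin.sum_univ_two]
            linear_combination -h3
          · simp [mulVec, dotProduct, Fin.sum_univ_two]
            ring)
        exact h10 (congrFun h4 1)
    · have h1 := hc a a0
      rw [← hSm] at h1
      have e00 := congrFun (congrFun h1 0) 0
      have e10 := congrFun (congrFun h1 1) 0
      simp only [mul_apply, Fin.sum_univ_two] at e00 e10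
      have h3 : ι (Sm 1 0) ≠ 0 := (map_ne_zero ι).2 h10
      have f00 := congrArg ι e00
      have f10 := congrArg ι e10
      simp only [map_add, map_mul] at f00 f10
      obtain ⟨y, hy⟩ : ∃ y : K, ι (M a 1 0) = y * ι (Sm 1 0) := ⟨ι (M a 1 0) / ι (Sm 1 0), by
        rw [div_mul_cancel₀ _ h3]⟩
      have g01 : ι (M a 0 1) = y * ι (Sm 0 1) := by
        refine mul_right_cancel₀ h3 ?_
        rw [hy] at f00
        linear_combination f00
      have g11 : ι (M a 1 1) = ι (M a 0 0) + y * (ι (Sm 1 1) - ι (Sm 0 0)) := by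
        refine mul_right_cancel₀ h3 ?_
        rw [hy] at f10
        linear_combination f10
      refine ⟨ι (M a 0 0) + y * (ω - ι (Sm 0 0)), fun v => ?_⟩
      simp only [mulVec, dotProduct, Fin.sum_univ_two, map_add, map_mul]
      rw [hy, g01, g11]
      linear_combination -(ι (v 1) * y) * hω

end Two

end Vale.Agent.P183K.Lift
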