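import Vale.Agent.P183K.Lift.NodeL

/-!
# P183K: root subgroups and nodes of symplectic, unitary and orthogonal groups (helper2)
-/

set_option autoImplicit false
set_option linter.all false

namespace Vale.Agent.P183K.Lift

open Matrix Subgroup Vale.Agent.P240.H195 Vale.Agent.P183CR Vale.Agent.P183M
open Vale.Agent.P183K.Def (St stW stH Node Ms CP liftS liftE)

universe u

variable {G : Type u} [Group G] {F0 : Type} [Field F0] {d : ℕ}

/-- the block of an index -/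
def blk (m : ℕ) (a : Fin d) : ℕ := if m ≤ a.val ∧ m ≤ a.rev.val then m else a.val

lemma rf_def {a b : Fin d} (h1 : a ≠ b) (h2 : a ≠ b.rev) (h3 : a ≠ a.rev) (h4 : b ≠ b.rev)
    (k : Fin d) : rf a b k = if k = a then b else if k = b then a else if k = a.rev then b.rev
      else if k = b.rev then a.rev else k := by
  have h5 : b ≠ a.rev := fun h => h2 (by rw [h, Fin.rev_rev])
  unfold rf
  rw [Equiv.Perm.mul_apply]
  split_ifs with e1 e2 e3 e4
  · rw [e1, Equiv.swap_apply_of_ne_of_ne h3 h2, Equiv.swap_apply_left]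
  · rw [e2, Equiv.swap_apply_of_ne_of_ne h5 h4, Equiv.swap_apply_right]
  · rw [e3, Equiv.swap_apply_left, Equiv.swap_apply_of_ne_of_ne h2.symm h4.symm]
  · rw [e4, Equiv.swap_apply_right, Equiv.swap_apply_of_ne_of_ne h3.symm h5.symm]
  · rw [Equiv.swap_apply_of_ne_of_ne e3 e4, Equiv.swap_apply_of_ne_of_ne e1 e2]

lemma rf_val {a b : Fin d} (h1 : a ≠ b) (h2 : a ≠ b.rev) (h3 : a ≠ a.rev) (h4 : b ≠ b.rev)
    (k : Fin d) : (rf a b k).val = if k.val = a.val then b.val else if k.val = b.val then a.val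
      else if k.val = d - (a.val + 1) then d - (b.val + 1)
      else if k.val = d - (b.val + 1) then d - (a.val + 1) else k.val := by
  rw [rf_def h1 h2 h3 h4]
  simp only [Fin.ext_iff, Fin.val_rev]
  split_ifs <;> first | rfl | exact Fin.val_rev _

lemma inv_A {a b a' b' : Fin d} {m : ℕ} (h1 : a ≠ b) (h2 : a ≠ b.rev) (h3 : a ≠ a.rev)
    (h4 : b ≠ b.rev) (hb : b.val = a.val + 1) (hm : b.val < m) (hd : 2 * m ≤ d) (hab' : a' < b')
    (hlt : ¬ rf a b a' < rf a b b') : (a' = a ∧ b' = b) ∨ (a' = b.rev ∧ b' = a.rev) := by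
  rw [Fin.lt_def, rf_val h1 h2 h3 h4, rf_val h1 h2 h3 h4] at hlt
  rw [Fin.lt_def] at hab'
  simp only [Fin.ext_iff, Fin.val_rev]
  split_ifs at hlt <;> omega

lemma inv_D {a b a' b' : Fin d} {m : ℕ} (h1 : a ≠ b.rev) (h2 : a ≠ b.rev.rev) (h3 : a ≠ a.rev)
    (h4 : b.rev ≠ b.rev.rev) (hb : b.val = a.val + 1) (hm : b.val + 1 = m) (hd : d = 2 * m)
    (hab' : a' < b') (hlt : ¬ rf a b.rev a' < rf a b.rev b') :
    ((a' = a ∧ b' = b.rev) ∨ (a' = b ∧ b' = a.rev)) ∨ (a' = b ∧ b' = b.rev) ∨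
      (a' = a ∧ b' = a.rev) := by
  rw [Fin.lt_def, rf_val h1 h2 h3 h4, rf_val h1 h2 h3 h4] at hlt
  rw [Fin.lt_def] at hab'
  simp only [Fin.ext_iff, Fin.val_rev] at hlt ⊢
  split_ifs at hlt <;> omega

section R
variable {R : Type} [CommRing R] {D : Dat G R F0 d}

lemma blk_mid {a : Fin d} (ha : D.Mid a) : blk D.m a = D.m := if_pos ha

lemma blk_not {a : Fin d} (ha : ¬ D.Mid a) : blk D.m a = a.val := if_neg ha

lemma Sgn.not_mid {w : Equiv.Perm (Fin d)} (hw : D.Sgn w) {a : Fin d} (ha : ¬ D.Mid a) :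
    ¬ D.Mid (w a) := fun h1 => ha (by rwa [w.injective (hw.2 _ h1)] at h1)

lemma Sgn.inv {w : Equiv.Perm (Fin d)} (hw : D.Sgn w) : D.Sgn w⁻¹ :=
  ⟨fun a => by rw [Equiv.Perm.inv_eq_iff_eq, hw.1, perm_apply_inv],
    fun a ha => by rw [Equiv.Perm.inv_eq_iff_eq, hw.2 a ha]⟩

/-- admissible pairs of indices -/
structure Ad (D : Dat G R F0 d) (a b : Fin d) : Prop where
  ma : ¬ D.Mid a
  mb : ¬ D.Mid b
  ne : a ≠ b
  ne' : a ≠ b.rev

lemma Ad.symm {a b : Fin d} (h : Ad D a b) : Ad D b a :=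
  ⟨h.mb, h.ma, h.ne.symm, fun h1 => h.ne' (by rw [h1, Fin.rev_rev])⟩

variable {p : ℕ} (h : CD p D)
include h

lemma blk_le {i j : Fin d} : blk D.m j ≤ blk D.m i ↔ j ≤ i ∨ (D.Mid i ∧ D.Mid j) := by
  have := h.le_d
  unfold blk Dat.Mid
  simp only [Fin.val_rev, Fin.le_def]
  split_ifs <;> omega

lemma blk_eq {i j : Fin d} : blk D.m i = blk D.m j ↔ i = j ∨ (D.Mid i ∧ D.Mid j) := by
  have := h.le_d
  unfold blk Dat.Mid
  simp only [Fin.val_rev, Fin.ext_iff]
  split_ifs <;> omega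

lemma ne_rev {a : Fin d} (ha : ¬ D.Mid a) : a ≠ a.rev := fun h1 => ha (by
  have := h.le_d
  have h2 := congrArg Fin.val h1
  unfold Dat.Mid
  rw [Fin.val_rev] at h2 ⊢
  omega)

lemma Sgn.cw {w : Equiv.Perm (Fin d)} (hw : D.Sgn w) : Cw (blk D.m) w := by
  intro a b hab
  rcases (blk_eq h).1 hab with h1 | h1
  · rw [h1]
  · rw [hw.2 a h1.1, hw.2 b h1.2, hab]

lemma J_mulVec {a : Fin d} (ha : ¬ D.Mid a) (y : Fin d → R) :
    (D.J *ᵥ y) a = D.J a a.rev * y a.rev := by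
  rw [mulVec, dotProduct, Finset.sum_eq_single a.rev]
  · intro b _ hb
    rw [h.J_zero a b hb fun h1 => ha h1.1, zero_mul]
  · intro h2
    exact absurd (Finset.mem_univ _) h2

lemma Mon.inv {g : G} {w : Equiv.Perm (Fin d)} (hg : D.Mon (D.ρ g) w) : D.Mon (D.ρ g⁻¹) w⁻¹ := by
  refine ⟨Sgn.inv hg.1, fun a ha => ?_, fun j l hj hl => ?_⟩
  · obtain ⟨c, hc⟩ := hg.2.1 _ (Sgn.not_mid (Sgn.inv hg.1) ha)
    rw [perm_apply_inv] at hc
    exact ⟨c⁻¹, inv_ee hc⟩
  · have hl' : ¬ D.Mid l.rev := fun h1 => hl ((CD.mid_rev h).1 h1)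
    obtain ⟨c, hc⟩ := hg.2.1 _ hl'
    have h1 := h.inv g (ee l.rev) (D.ρ g⁻¹ *ᵥ ee j)
    have hw := Sgn.not_mid hg.1 hl'
    rw [rho_mulVec_inv, hc, smul_β, ee_β_ee, h.J_zero _ _ (fun h2 => hw ((CD.mid_rev h).1
      (by rwa [← h2]))) (fun h2 => hw h2.1), mul_zero, ee_β, J_mulVec h hl', Fin.rev_rev,
      mulVec_ee] at h1
    have h2 := h.J_unit _ hl'
    rw [Fin.rev_rev] at h2
    exact (h2.mul_right_eq_zero).1 h1.symm

lemma Mon.row {g : G} {w : Equiv.Perm (Fin d)} (hg : D.Mon (D.ρ g) w) {b : Fin d}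
    (hb : ¬ D.Mid b) {β : Rˣ} (hβ : D.ρ g *ᵥ ee b = (β : R) • ee (w b)) (j : Fin d) :
    D.ρ g⁻¹ b j = if j = w b then ((β⁻¹ : Rˣ) : R) else 0 := by
  split_ifs with h1
  · rw [h1, entry_of_ee (inv_ee hβ), if_pos rfl]
  · by_cases hj : D.Mid j
    · exact (Mon.inv h hg).2.2 j b hj hb
    · obtain ⟨c, hc⟩ := (Mon.inv h hg).2.1 j hj
      rw [entry_of_ee hc, if_neg]
      rintro rfl
      exact h1 (perm_apply_inv w j).symm

lemma Mon.conj {g : G} {w : Equiv.Perm (Fin d)} (hg : D.Mon (D.ρ g) w) {a b : Fin d}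
    (hb : ¬ D.Mid b) {α β : Rˣ} (hα : D.ρ g *ᵥ ee a = (α : R) • ee (w a))
    (hβ : D.ρ g *ᵥ ee b = (β : R) • ee (w b)) (c : R) :
    D.ρ g * single a b c * D.ρ g⁻¹ = single (w a) (w b) (α * c * (β⁻¹ : Rˣ)) :=
  conj_single hα (Mon.row h hg hb hβ) c

end R

variable {F : Type} [Field F] {p : ℕ} {D : Dat G F F0 d}

lemma Mon.bm (h : CD p D) {M : Matrix (Fin d) (Fin d) F} {w : Equiv.Perm (Fin d)}
    (hM : D.Mon M w) : BM (blk D.m) M w := by
  intro i j hij
  by_cases hj : D.Mid j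
  · have hi : D.Mid i := by
      by_contra hi
      exact hij (hM.2.2 j i hj hi)
    rw [hM.1.2 j hj, blk_mid hi, blk_mid hj]
  · obtain ⟨c, hc⟩ := hM.2.1 j hj
    rw [entry_of_ee hc] at hij
    split_ifs at hij with h1
    · rw [h1]
    · exact absurd rfl hij

lemma Mon.gm (h : CD p D) {g : G} {w : Equiv.Perm (Fin d)} (hg : D.Mon (D.ρ g) w) :
    GM D.ρ (blk D.m) g w :=
  ⟨Mon.bm h hg, Mon.bm h (Mon.inv h hg), Sgn.cw h hg.1, Sgn.cw h (Sgn.inv hg.1)⟩

/-- the second coefficient of a root element -/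
def cc (D : Dat G F F0 d) (a b : Fin d) (s : F) : F := -(D.σ s * D.J a a.rev) / D.J b b.rev

/-- the matrix of a root element, minus the identity -/
def rm (D : Dat G F F0 d) (a b : Fin d) (s : F) : Matrix (Fin d) (Fin d) F :=
  single a b s + single b.rev a.rev (cc D a b s)

/-- a family of root elements -/
def XF (p : ℕ) (D : Dat G F F0 d) (x : Fin d → Fin d → F → G) : Prop :=
  ∀ a b, Ad D a b → ∀ s, IsP p (x a b s) ∧ D.ρ (x a b s) = 1 + rm D a b s

lemma rm_eq (h : CD p D) {a b : Fin d} (hab : Ad D a b) {g : G} {c c' : F}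
    (hg : D.ρ g = 1 + (single a b c + single b.rev a.rev c')) : D.ρ g = 1 + rm D a b c := by
  have h1 := root_snd h hab.ma hab.mb hab.ne hab.ne' (hg.trans (add_assoc _ _ _).symm)
  rw [hg, rm, cc, ← h1, mul_div_cancel_right₀ _ (h.J_unit b hab.mb).ne_zero]

lemma exists_XF (h : CD p D) : ∃ x, XF p D x := by
  have H : ∀ a b, Ad D a b → ∀ s, ∃ g, IsP p g ∧ D.ρ g = 1 + rm D a b s := by
    intro a b hab s
    obtain ⟨g, c', hg, hg'⟩ := h.rootel a b hab.ma hab.mb hab.ne hab.ne' s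
    exact ⟨g, hg, rm_eq h hab (hg'.trans (add_assoc _ _ _))⟩
  classical
  refine ⟨fun a b s => if hab : Ad D a b then (H a b hab s).choose else 1, fun a b hab s => ?_⟩
  simp only [dif_pos hab]
  exact (H a b hab s).choose_spec

section
variable (h : CD p D) {a b : Fin d} (hab : Ad D a b)
include h hab

lemma rm_add (s t : F) : rm D a b (s + t) = rm D a b s + rm D a b t := by
  have : cc D a b (s + t) = cc D a b s + cc D a b t := by
    unfold cc
    rw [map_add]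
    ring
  unfold rm
  rw [this, single_add, single_add]
  abel

lemma rm_rm (s t : F) : rm D a b s * rm D a b t = 0 := by
  unfold rm
  rw [add_mul, mul_add, mul_add, single_mul_single_of_ne _ _ _ _ hab.ne.symm,
    single_mul_single_of_ne _ _ _ _ (ne_rev h hab.mb),
    single_mul_single_of_ne _ _ _ _ (ne_rev h hab.ma).symm,
    single_mul_single_of_ne _ _ _ _ (fun h1 => hab.ne (Fin.rev_injective h1))]
  simp

lemma rm_rm_rm (s t u : F) : rm D a b s * rm D b a t * rm D a b u = rm D a b (s * t * u) := by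
  have e : cc D a b (s * t * u) = cc D a b s * cc D b a t * cc D a b u := by
    unfold cc
    have h1 := (h.J_unit a hab.ma).ne_zero
    have h2 := (h.J_unit b hab.mb).ne_zero
    rw [map_mul, map_mul]
    field_simp
  unfold rm
  have e1 : (single a b s + single b.rev a.rev (cc D a b s)) *
      (single b a t + single a.rev b.rev (cc D b a t)) =
      single a a (s * t) + single b.rev b.rev (cc D a b s * cc D b a t) := by
    rw [add_mul, mul_add, mul_add, single_mul_single_same,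
      single_mul_single_of_ne _ _ _ _ hab.symm.ne',
      single_mul_single_of_ne _ _ _ _ hab.symm.ne'.symm, single_mul_single_same, add_zero, zero_add]
  rw [e, e1, add_mul, mul_add, mul_add, single_mul_single_same,
    single_mul_single_of_ne _ _ _ _ hab.ne', single_mul_single_of_ne _ _ _ _ hab.ne'.symm,
    single_mul_single_same, add_zero, zero_add]

lemma jp_rm : JP (rm D a b) (rm D b a) :=
  ⟨rm_add h hab, rm_add h hab.symm, rm_rm h hab, rm_rm h hab.symm, rm_rm_rm h hab,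
    rm_rm_rm h hab.symm⟩

omit h in
lemma rm_ee (s : F) (k : Fin d) : (1 + rm D a b s) *ᵥ ee k =
    if k = b then ee k + s • ee a else if k = a.rev then ee k + cc D a b s • ee b.rev else ee k := by
  unfold rm
  rw [add_mulVec, add_mulVec, one_mulVec, single_mulVec_ee, single_mulVec_ee]
  split_ifs with h1 h2 h2
  · exact absurd (h1.symm.trans h2) hab.symm.ne'
  · rw [add_zero]
  · rw [zero_add]
  · rw [add_zero, add_zero]

variable {x : Fin d → Fin d → F → G} (hx : XF p D x)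
include hx

lemma XF.st : St (x a b) (x b a) :=
  (jp_rm h hab).st (μ := D.ρ) h.pinj (hx a b hab) (hx b a hab.symm)

lemma XF.eq {g : G} (hg : IsP p g) {c c' : F}
    (hg' : D.ρ g = 1 + (single a b c + single b.rev a.rev c')) : g = x a b c :=
  h.pinj _ _ hg (hx a b hab c).1 (by rw [rm_eq h hab hg', (hx a b hab c).2])

lemma XF.w_act {t : F} (ht : t ≠ 0) :
    D.ρ (stW (x a b) (x b a) t) *ᵥ ee a = (-t⁻¹) • ee b ∧
      D.ρ (stW (x a b) (x b a) t) *ᵥ ee b = t • ee a ∧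
      D.ρ (stW (x a b) (x b a) t) *ᵥ ee b.rev = cc D b a (-t⁻¹) • ee a.rev ∧
      D.ρ (stW (x a b) (x b a) t) *ᵥ ee a.rev = cc D a b t • ee b.rev ∧
        ∀ k, k ≠ a → k ≠ b → k ≠ a.rev → k ≠ b.rev →
          D.ρ (stW (x a b) (x b a) t) *ᵥ ee k = ee k := by
  have n1 := hab.ne
  have n2 := hab.ne'
  have n3 := hab.symm.ne'
  have n4 := ne_rev h hab.ma
  have n5 := ne_rev h hab.mb
  have n6 : a.rev ≠ b.rev := fun h1 => n1 (Fin.rev_injective h1)
  unfold stW
  rw [map_mul, map_mul, (hx a b hab _).2, (hx b a hab.symm _).2]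
  obtain ⟨h1, h2⟩ := plane (X := 1 + rm D a b t) (Y := 1 + rm D b a (-t⁻¹)) (e := ee a)
    (f := ee b) (t := t) (u := -t⁻¹) (by rw [rm_ee hab, if_neg n1, if_neg n4])
    (by rw [rm_ee hab, if_pos rfl]) (by rw [rm_ee hab.symm, if_pos rfl])
    (by rw [rm_ee hab.symm, if_neg n1.symm, if_neg n5]) (by field_simp)
  obtain ⟨h3, h4⟩ := plane (X := 1 + rm D a b t) (Y := 1 + rm D b a (-t⁻¹)) (e := ee b.rev)
    (f := ee a.rev) (t := cc D a b t) (u := cc D b a (-t⁻¹))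
    (by rw [rm_ee hab, if_neg n5.symm, if_neg n6.symm])
    (by rw [rm_ee hab, if_neg n3.symm, if_pos rfl])
    (by rw [rm_ee hab.symm, if_neg n2.symm, if_pos rfl])
    (by rw [rm_ee hab.symm, if_neg n4.symm, if_neg n6]) (by
      unfold cc
      have h1 := (h.J_unit a hab.ma).ne_zero
      have h2 := (h.J_unit b hab.mb).ne_zero
      have h3 : D.σ t ≠ 0 := (map_ne_zero D.σ).2 ht
      rw [map_neg, map_inv₀]
      field_simp)
  refine ⟨h1, h2, h3, h4, fun k k1 k2 k3 k4 => ?_⟩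
  rw [← mulVec_mulVec, ← mulVec_mulVec, rm_ee hab, if_neg k2, if_neg k3, rm_ee hab.symm,
    if_neg k1, if_neg k4, rm_ee hab, if_neg k2, if_neg k3]

lemma XF.w_mon {t : F} (ht : t ≠ 0) : D.Mon (D.ρ (stW (x a b) (x b a) t)) (rf a b) := by
  obtain ⟨h1, h2, h3, h4, h5⟩ := XF.w_act h hab hx ht
  obtain ⟨n, -, hn⟩ := h.refl a b hab.ma hab.mb hab.ne hab.ne'
  have hc : ∀ a b s, Ad D a b → s ≠ 0 → cc D a b s ≠ 0 := fun a b s hab hs =>
    div_ne_zero (neg_ne_zero.2 (mul_ne_zero ((map_ne_zero D.σ).2 hs) (h.J_unit a hab.ma).ne_zero))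
      (h.J_unit b hab.mb).ne_zero
  have ht' : -t⁻¹ ≠ 0 := neg_ne_zero.2 (inv_ne_zero ht)
  refine ⟨hn.1, fun k _ => ?_, fun k i hk hi => ?_⟩
  · rw [rf_def hab.ne hab.ne' (ne_rev h hab.ma) (ne_rev h hab.mb)]
    split_ifs with e1 e2 e3 e4
    · rw [e1]; exact ⟨Units.mk0 _ ht', h1⟩
    · rw [e2]; exact ⟨Units.mk0 _ ht, h2⟩
    · rw [e3]; exact ⟨Units.mk0 _ (hc a b t hab ht), h4⟩
    · rw [e4]; exact ⟨Units.mk0 _ (hc b a _ hab.symm ht'), h3⟩
    · exact ⟨1, by rw [h5 k e1 e2 e3 e4, Units.val_one, one_smul]⟩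
  · rw [← mulVec_ee (D.ρ _), h5 k (by rintro rfl; exact hab.ma hk) (by rintro rfl; exact hab.mb hk)
      (by rintro rfl; exact hab.ma ((CD.mid_rev h).1 hk))
      (by rintro rfl; exact hab.mb ((CD.mid_rev h).1 hk)), ee_ne (by rintro rfl; exact hi hk)]

lemma XF.h_act {t : F} (ht : t ≠ 0) : D.ρ (stH (x a b) (x b a) t) *ᵥ ee a = t • ee a := by
  obtain ⟨-, h2, -⟩ := XF.w_act h hab hx ht
  obtain ⟨h4, -⟩ := XF.w_act h hab hx (neg_ne_zero.2 (one_ne_zero (α := F)))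
  unfold stH
  rw [rho_mulVec, h4, mulVec_smul, h2, smul_smul]
  simp

lemma XF.conj_T {τ : G} (hτ : D.Mon (D.ρ τ) 1) {α β : Fˣ} (hα : D.ρ τ *ᵥ ee a = (α : F) • ee a)
    (hβ : D.ρ τ *ᵥ ee b = (β : F) • ee b) (s : F) :
    τ * x a b s * τ⁻¹ = x a b (α * s * (β⁻¹ : Fˣ)) := by
  have ma : ¬ D.Mid a.rev := fun h1 => hab.ma ((CD.mid_rev h).1 h1)
  have mb : ¬ D.Mid b.rev := fun h1 => hab.mb ((CD.mid_rev h).1 h1)
  obtain ⟨γ, hγ⟩ := hτ.2.1 _ ma
  obtain ⟨δ, hδ⟩ := hτ.2.1 _ mb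
  refine XF.eq h hab hx (Def.IsP.conj (hx a b hab s).1 τ) (c' := δ * cc D a b s * (γ⁻¹ : Fˣ)) ?_
  rw [map_mul, map_mul, (hx a b hab _).2, conj_one_add, rm, mul_add, add_mul,
    Mon.conj h hτ hab.mb hα hβ, Mon.conj h hτ ma hδ hγ]
  rfl

lemma XF.T_act {τ : G} (hτ : D.Mon (D.ρ τ) 1) : ∃ l : F, l ≠ 0 ∧
    (∀ s, τ * x a b s * τ⁻¹ = x a b (l * s)) ∧ ∀ s, τ * x b a s * τ⁻¹ = x b a (l⁻¹ * s) := by
  obtain ⟨α, hα⟩ := hτ.2.1 a hab.ma
  obtain ⟨β, hβ⟩ := hτ.2.1 b hab.mb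
  refine ⟨α * (β⁻¹ : Fˣ), mul_ne_zero α.ne_zero (Units.ne_zero _), fun s => ?_, fun s => ?_⟩
  · rw [XF.conj_T h hab hx hτ hα hβ, mul_right_comm]
  · rw [XF.conj_T h hab.symm hx hτ hβ hα, mul_right_comm, mul_inv, Units.val_inv_eq_inv_val,
      Units.val_inv_eq_inv_val, inv_inv, mul_comm (β : F)]

lemma XF.of_pat {g : G} (hg : g ∈ D.U)
    (hg' : ∀ i j, i ≠ j → ¬ (i = a ∧ j = b) → ¬ (i = b.rev ∧ j = a.rev) → D.ρ g i j = 0) :
    ∃ c, g = x a b c := by
  refine ⟨D.ρ g a b, XF.eq h hab hx (CD.isP h hg) (c' := D.ρ g b.rev a.rev) ?_⟩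
  ext i j
  rw [Matrix.add_apply, Matrix.add_apply, single_apply, single_apply]
  by_cases hij : i = j
  · rw [hij, (h.up g hg).1.2, one_apply_eq, if_neg (fun h2 => hab.ne (h2.1.trans h2.2.symm)),
      if_neg (fun h2 => hab.ne (Fin.rev_injective (h2.2.trans h2.1.symm))), add_zero, add_zero]
  · rw [one_apply_ne hij, zero_add]
    split_ifs with h2 h3 h3
    · exact absurd (h2.1.trans h3.1.symm) hab.ne'
    · rw [← h2.1, ← h2.2, add_zero]
    · rw [← h3.1, ← h3.2, zero_add]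
    · rw [add_zero]
      exact hg' i j hij (fun h4 => h2 ⟨h4.1.symm, h4.2.symm⟩) fun h4 => h3 ⟨h4.1.symm, h4.2.symm⟩

end

namespace CDF
variable (h : CDF p D)
include h

lemma mb : MB p D.B D.N D.U D.S D.ρ (blk D.m) where
  sb := CD.sb h.toCD
  prime := CD.prime h.toCD
  up u hu i j hij := by
    by_cases h1 : i = j
    · rw [h1, (h.up u hu).1.2, one_apply_eq]
    · rw [one_apply_ne h1]
      rcases (blk_le h.toCD).1 hij with h2 | h2
      · exact (h.up u hu).1.1 i j (lt_of_le_of_ne h2 (Ne.symm h1))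
      · exact (h.up u hu).2 i j h2.1 h2.2 h1
  up' g hg hu := h.up' g hg ⟨⟨fun i j hij => by
      rw [hu i j ((blk_le h.toCD).2 (Or.inl hij.le)), one_apply_ne hij.ne'],
    fun i => by rw [hu i i le_rfl, one_apply_eq]⟩, fun i j hi hj hij => by
      rw [hu i j ((blk_le h.toCD).2 (Or.inr ⟨hi, hj⟩)), one_apply_ne hij]⟩
  pinj := h.pinj
  monT t ht ht' := Mon.gm h.toCD (h.mon_T t ht ht')

lemma pat_K {s g : G} {w : Equiv.Perm (Fin d)} (hw : D.Mon (D.ρ s) w) (hg : g ∈ D.U) {a b : Fin d}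
    (ha : ¬ D.Mid a) (hb : ¬ D.Mid b) (hg' : ∀ i j, i ≠ j → ¬ D.Pat a b i j → D.ρ g i j = 0)
    (hlt : w a < w b) : g ∈ Kg D.U s := by
  refine mem_Kg.2 ⟨hg, (mb h).conj_mem (Mon.gm h.toCD hw) (CD.isP h.toCD hg) fun k l hkl => ?_⟩
  by_cases h2 : k = l
  · rw [h2, (h.up g hg).1.2, one_apply_eq]
  · rw [one_apply_ne h2]
    refine hg' k l h2 ?_
    have wa := Sgn.not_mid hw.1 ha
    have wb := Sgn.not_mid hw.1 hb
    have hd := h.le_d
    rintro (⟨rfl, rfl⟩ | ⟨rfl, rfl⟩ | ⟨rfl, ⟨rfl, h3⟩ | ⟨h3, rfl⟩⟩)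
    · rw [blk_not wa, blk_not wb] at hkl
      exact absurd hlt (not_lt.2 hkl)
    · rw [hw.1.1, hw.1.1, blk_not (fun h1 => wa ((CD.mid_rev h.toCD).1 h1)),
        blk_not (fun h1 => wb ((CD.mid_rev h.toCD).1 h1)), ← Fin.le_def, Fin.rev_le_rev] at hkl
      exact absurd hlt (not_lt.2 hkl)
    · rw [hw.1.2 l h3, blk_mid h3, blk_not wa] at hkl
      rw [hw.1.1, Fin.lt_def] at hlt
      exact wa ⟨hkl, by omega⟩
    · rw [hw.1.2 k h3, blk_mid h3, blk_not wb, hw.1.1] at hkl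
      rw [hw.1.1, Fin.lt_def] at hlt
      unfold Dat.Mid at wa h3
      simp only [Fin.val_rev] at wa h3 hkl hlt
      omega

lemma eq_one_of_pat {g : G} (hg : g ∈ D.U) (hg' : ∀ i j, i ≠ j → D.ρ g i j = 0) : g = 1 := by
  refine h.pinj _ _ (CD.isP h.toCD hg) (Def.IsP.one p) ?_
  rw [map_one]
  ext i j
  by_cases hij : i = j
  · rw [hij, (h.up g hg).1.2, one_apply_eq]
  · rw [one_apply_ne hij, hg' i j hij]

variable {x : Fin d → Fin d → F → G} (hx : XF p D x)
include hx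

lemma x_mem {a b : Fin d} (hab : Ad D a b) (hlt : a < b) (s : F) : x a b s ∈ D.U := by
  refine (mb h).up' _ (hx a b hab s).1 fun i j hij => ?_
  rw [(hx a b hab s).2, rm, Matrix.add_apply, Matrix.add_apply, single_apply, single_apply, if_neg,
    if_neg, add_zero, add_zero]
  · rintro ⟨rfl, rfl⟩
    rcases (blk_le h.toCD).1 hij with h1 | h1
    · rw [Fin.rev_le_rev] at h1
      exact absurd hlt (not_lt.2 h1)
    · exact hab.mb ((CD.mid_rev h.toCD).1 h1.1)
  · rintro ⟨rfl, rfl⟩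
    rcases (blk_le h.toCD).1 hij with h1 | h1
    · exact absurd hlt (not_lt.2 h1)
    · exact hab.ma h1.1

omit hx in
lemma ad_succ {a b : Fin d} (hb : b.val = a.val + 1) (hm : b.val < D.m) : Ad D a b := by
  have hd := h.le_d
  refine ⟨CD.not_mid h.toCD (by omega), CD.not_mid h.toCD hm, fun h1 => ?_, fun h1 => ?_⟩
  · rw [h1] at hb; omega
  · have := congrArg Fin.val h1
    rw [Fin.val_rev] at this
    omega

omit hx in
lemma ad_last {a b : Fin d} (hb : b.val = a.val + 1) (hm : b.val < D.m) : Ad D a b.rev := by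
  have := ad_succ h hb hm
  exact ⟨this.ma, fun h1 => this.mb ((CD.mid_rev h.toCD).1 h1), this.ne', by
    rw [Fin.rev_rev]; exact this.ne⟩

lemma node [Finite G] {a b : Fin d} (hb : b.val = a.val + 1) (hm : b.val < D.m) :
    Node D.B D.N D.U (D.nd a.val) (x a b) (x b a) := by
  have hab := ad_succ h hb hm
  have hrk := h.rk_eq
  have hd := h.le_d
  have hs : D.nd a.val ∈ D.S := CD.nd_mem h.toCD (by omega)
  have hw := h.mon_nd a b hb hm
  refine (mb h).node hs (Mon.gm h.toCD hw) (XF.st h.toCD hab hx)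
    (x_mem h hx hab (by rw [Fin.lt_def]; omega))
    (fun t ht => Mon.gm h.toCD (XF.w_mon h.toCD hab hx ht)) h.gen ?_
  rintro g ⟨hg, a', b', hab', ha', hb', hg'⟩
  by_cases hlt : rf a b a' < rf a b b'
  · exact Or.inl (pat_K h hw hg ha' hb' hg' hlt)
  · right
    have h1 := inv_A hab.ne hab.ne' (ne_rev h.toCD hab.ma) (ne_rev h.toCD hab.mb) hb hm hd hab' hlt
    refine XF.of_pat h.toCD hab hx hg fun i j hij h2 h3 => hg' i j hij ?_
    rcases h1 with ⟨rfl, rfl⟩ | ⟨rfl, rfl⟩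
    · rintro (h4 | h4 | h4)
      · exact h2 h4
      · exact h3 h4
      · exact hab.symm.ne' h4.1
    · rintro (h4 | h4 | h4)
      · exact h3 h4
      · rw [Fin.rev_rev, Fin.rev_rev] at h4
        exact h2 h4
      · rw [Fin.rev_rev] at h4
        exact hab.symm.ne' h4.1.symm

lemma nodeD [Finite G] (hD : D.dty) {a b : Fin d} (hb : b.val = a.val + 1) (hm : b.val + 1 = D.m) :
    Node D.B D.N D.U (D.nd b.val) (x a b.rev) (x b.rev a) := by
  have hab0 := ad_succ h hb (by omega)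
  have hab := ad_last h hb (by omega)
  have hrk := h.rk_eq
  obtain ⟨hd, hz⟩ := h.dzero hD
  have hnm : ∀ i : Fin d, ¬ D.Mid i := fun i hi => by
    unfold Dat.Mid at hi
    rw [Fin.val_rev] at hi
    omega
  have hs : D.nd b.val ∈ D.S := CD.nd_mem h.toCD (by omega)
  have hw := h.mon_last' hD a b hb hm
  refine (mb h).node hs (Mon.gm h.toCD hw) (XF.st h.toCD hab hx)
    (x_mem h hx hab (by rw [Fin.lt_def, Fin.val_rev]; omega))
    (fun t ht => Mon.gm h.toCD (XF.w_mon h.toCD hab hx ht)) h.gen ?_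
  rintro g ⟨hg, a', b', hab', ha', hb', hg'⟩
  by_cases hlt : rf a b.rev a' < rf a b.rev b'
  · exact Or.inl (pat_K h hw hg ha' hb' hg' hlt)
  · have h1 := inv_D hab.ne hab.ne' (ne_rev h.toCD hab.ma) (ne_rev h.toCD hab.mb) hb hm hd hab' hlt
    have hsing : ∀ c : Fin d, (∀ i j, i ≠ j → ¬ D.Pat c c.rev i j → D.ρ g i j = 0) →
        ∀ i j, i ≠ j → ¬ (i = c ∧ j = c.rev) → D.ρ g i j = 0 := by
      intro c hc i j hij h2
      refine hc i j hij ?_
      rintro (h4 | h4 | ⟨-, h4 | h4⟩)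
      · exact h2 h4
      · rw [Fin.rev_rev] at h4
        exact h2 h4
      · exact hnm _ h4.2
      · exact hnm _ h4.1
    rcases h1 with h1 | ⟨rfl, rfl⟩ | ⟨rfl, rfl⟩
    · right
      refine XF.of_pat h.toCD hab hx hg fun i j hij h2 h3 => hg' i j hij ?_
      rw [Fin.rev_rev] at h3
      rcases h1 with ⟨rfl, rfl⟩ | ⟨rfl, rfl⟩
      · rintro (h4 | h4 | h4)
        · exact h2 h4
        · rw [Fin.rev_rev] at h4
          exact h3 h4
        · exact hab0.ne (Fin.rev_injective h4.1).symm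
      · rintro (h4 | h4 | h4)
        · exact h3 h4
        · rw [Fin.rev_rev] at h4
          exact h2 h4
        · exact hab0.ne (Fin.rev_injective h4.1)
    · left
      rw [eq_one_of_pat h hg fun i j hij => ?_]
      · exact one_mem _
      · by_cases h2 : i = a' ∧ j = a'.rev
        · rw [h2.1, h2.2]
          exact hz g hg a' hm
        · exact hsing a' hg' i j hij h2
    · left
      have hw' := h.mon_nd a' b hb (by omega)
      have e1 : rf a' b a' = b := by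
        rw [rf_def hab0.ne hab0.ne' (ne_rev h.toCD hab0.ma) (ne_rev h.toCD hab0.mb), if_pos rfl]
      have e2 : rf a' b a'.rev = b.rev := by rw [hw'.1.1, e1]
      have hK := pat_K h hw' hg ha' hb' hg' (by
        rw [e1, e2, Fin.lt_def, Fin.val_rev]; omega)
      obtain ⟨α, hα⟩ := hw'.2.1 _ ha'
      obtain ⟨β, hβ⟩ := hw'.2.1 _ hb'
      have e3 : D.ρ g = 1 + single a' a'.rev (D.ρ g a' a'.rev) := by
        ext i j
        rw [Matrix.add_apply, single_apply]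
        by_cases hij : i = j
        · rw [hij, (h.up g hg).1.2, one_apply_eq,
            if_neg (fun h2 => hab'.ne (h2.1.trans h2.2.symm)), add_zero]
        · rw [one_apply_ne hij, zero_add]
          split_ifs with h2
          · rw [← h2.1, ← h2.2]
          · exact hsing a' hg' i j hij fun h3 => h2 ⟨h3.1.symm, h3.2.symm⟩
      have h3 := hz _ (mem_Kg.1 hK).2 b hm
      rw [map_mul, map_mul, e3, conj_one_add, Mon.conj h.toCD hw' hb' hα hβ, e1, e2,
        Matrix.add_apply, one_apply_ne (ne_rev h.toCD hab0.mb), zero_add, single_apply_same] at h3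
      have h4 : D.ρ g a' a'.rev = 0 :=
        (mul_eq_zero.1 ((mul_eq_zero.1 h3).resolve_right (Units.ne_zero _))).resolve_left α.ne_zero
      rw [eq_one_of_pat h hg fun i j hij => ?_]
      · exact one_mem _
      · by_cases h2 : i = a' ∧ j = a'.rev
        · rw [h2.1, h2.2, h4]
        · exact hsing a' hg' i j hij h2

end CDF

end Vale.Agent.P183K.Lift
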