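import Vale.Agent.P183K.Lift.Mat
import Vale.Agent.P183K.Lift.P3

/-!
# P183K: root subgroups and nodes of linear groups (helper2)
-/

set_option autoImplicit false
set_option linter.all false

namespace Vale.Agent.P183K.Lift

open Matrix Subgroup Vale.Agent.P240.H195 Vale.Agent.P183CR Vale.Agent.P183M
open Vale.Agent.P183K.Def (St stW stH Node Ms CP liftS liftE)

universe u

variable {G : Type u} [Group G] {F0 : Type} [Field F0] {d : ℕ}

section Gen
variable {R : Type} [CommRing R] {μ : G →* Matrix (Fin d) (Fin d) R}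

lemma inv_ee {g : G} {b b' : Fin d} {β : Rˣ} (h : μ g *ᵥ ee b = (β : R) • ee b') :
    μ g⁻¹ *ᵥ ee b' = ((β⁻¹ : Rˣ) : R) • ee b := by
  conv_rhs => rw [← rho_inv_mulVec μ g (ee b), h, mulVec_smul, smul_smul, Units.inv_mul, one_smul]

lemma Mon1.row {g : G} {w : Equiv.Perm (Fin d)} (h : Mon1 (μ g) w) {b : Fin d} {β : Rˣ}
    (hb : μ g *ᵥ ee b = (β : R) • ee (w b)) (j : Fin d) :
    μ g⁻¹ b j = if j = w b then ((β⁻¹ : Rˣ) : R) else 0 := by
  split_ifs with h1
  · rw [h1, entry_of_ee (inv_ee hb), if_pos rfl]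
  · obtain ⟨c, hc⟩ := Mon1.inv h j
    rw [entry_of_ee hc, if_neg]
    rintro rfl
    exact h1 (perm_apply_inv w j).symm

lemma Mon1.mul {g g' : G} {w w' : Equiv.Perm (Fin d)} (h : Mon1 (μ g) w) (h' : Mon1 (μ g') w') :
    Mon1 (μ (g * g')) (w * w') := by
  intro a
  obtain ⟨c', hc'⟩ := h' a
  obtain ⟨c, hc⟩ := h (w' a)
  exact ⟨c' * c, by rw [rho_mulVec, hc', mulVec_smul, hc, smul_smul, Units.val_mul]; rfl⟩

lemma conj_one_add (g : G) (M : Matrix (Fin d) (Fin d) R) :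
    μ g * (1 + M) * μ g⁻¹ = 1 + μ g * M * μ g⁻¹ := by
  rw [mul_add, add_mul, mul_one, ← map_mul, mul_inv_cancel, map_one]

lemma one_add_single_ee (a b k : Fin d) (c : R) :
    (1 + single a b c) *ᵥ (ee k : Fin d → R) = if k = b then ee k + c • ee a else ee k := by
  rw [add_mulVec, one_mulVec, single_mulVec_ee]
  split_ifs
  · rfl
  · rw [add_zero]

end Gen

lemma jp_single {F : Type} [Field F] {a b : Fin d} (hab : a ≠ b) :
    JP (fun s : F => single a b s) (fun s : F => single b a s) where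
  aadd s t := single_add _ _ _ _
  badd s t := single_add _ _ _ _
  aa s t := single_mul_single_of_ne _ _ _ _ hab.symm _
  bb s t := single_mul_single_of_ne _ _ _ _ hab _
  aba s t u := by rw [single_mul_single_same, single_mul_single_same]
  bab s t u := by rw [single_mul_single_same, single_mul_single_same]

lemma root_snd {R : Type} [CommRing R] {p : ℕ} {D : Dat G R F0 d} (h : CD p D) {a b : Fin d}
    (ha : ¬ D.Mid a) (hb : ¬ D.Mid b) (hab : a ≠ b) (hab' : a ≠ b.rev) {g : G} {c c' : R}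
    (hg : D.ρ g = 1 + single a b c + single b.rev a.rev c') :
    c' * D.J b b.rev = -(D.σ c * D.J a a.rev) := by
  have h1 := h.inv g (ee b) (ee a.rev)
  have hba : b ≠ a.rev := fun h2 => hab' (by rw [h2, Fin.rev_rev])
  have e1 : D.ρ g *ᵥ ee b = ee b + c • ee a := by
    rw [hg, add_mulVec, one_add_single_ee, if_pos rfl, single_mulVec_ee, if_neg hba, add_zero]
  have e2 : D.ρ g *ᵥ ee a.rev = ee a.rev + c' • ee b.rev := by
    rw [hg, add_mulVec, one_add_single_ee, if_neg hba.symm, single_mulVec_ee, if_pos rfl]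
  have z1 : D.J b a.rev = 0 := h.J_zero _ _ (fun h2 => hab (Fin.rev_injective h2)) fun h2 => hb h2.1
  have z2 : D.J a b.rev = 0 :=
    h.J_zero _ _ (fun h2 => hab (Fin.rev_injective h2).symm) fun h2 => ha h2.1
  rw [e1, e2, add_β, β_add, β_add, smul_β, smul_β, β_smul, β_smul, ee_β_ee, ee_β_ee, ee_β_ee,
    ee_β_ee, z1, z2] at h1
  linear_combination h1

variable {F : Type} [Field F] {p : ℕ} {D : Dat G (F × F) F0 d}

/-- a family of root elements of a linear group -/
def XL (p : ℕ) (D : Dat G (F × F) F0 d) (x : Fin d → Fin d → F → G) : Prop :=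
  ∀ a b, a ≠ b → ∀ s, IsP p (x a b s) ∧ D.ρ1 (x a b s) = 1 + single a b s

namespace CDL
variable (h : CDL p D)
include h

lemma mb : MB p D.B D.N D.U D.S D.ρ1 Fin.val where
  sb := CD.sb h.toCD
  prime := CD.prime h.toCD
  up u hu i j hij := by
    rcases lt_or_eq_of_le hij with h1 | h1
    · rw [(Ut1 h hu).1 i j h1, one_apply_ne (fun h2 => by rw [h2] at h1; exact lt_irrefl _ h1)]
    · rw [Fin.ext h1, (Ut1 h hu).2, one_apply_eq]
  up' g hg hu := h.up' g hg ⟨fun i j hij => by rw [hu i j hij.le, one_apply_ne hij.ne'],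
    fun i => by rw [hu i i le_rfl, one_apply_eq]⟩
  pinj a b := pinj1 h
  monT t ht ht' := Mon1.gm (h.mon_T t ht ht')

lemma root_conj {a b : Fin d} (H : ∀ s : F, ∃ g, IsP p g ∧ D.ρ1 g = 1 + single a b s) (i j : Fin d)
    (s : F) : ∃ g, IsP p g ∧ D.ρ1 g = 1 + single (Equiv.swap i j a) (Equiv.swap i j b) s := by
  obtain ⟨n, -, hn⟩ := h.refl1 i j
  obtain ⟨α, hα⟩ := hn a
  obtain ⟨β, hβ⟩ := hn b
  obtain ⟨g, hg, hg'⟩ := H ((α⁻¹ : Fˣ) * s * β)
  refine ⟨n * g * n⁻¹, Def.IsP.conj hg n, ?_⟩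
  rw [map_mul, map_mul, hg', conj_one_add, conj_single hα (Mon1.row hn hβ), ← mul_assoc,
    ← mul_assoc, Units.mul_inv, one_mul, Units.mul_inv_cancel_right]

lemma exists_XL (hm : 2 ≤ D.m) : ∃ x, XL p D x := by
  have hd := h.le_d
  let i0 : Fin d := ⟨0, by omega⟩
  let i1 : Fin d := ⟨1, by omega⟩
  have m0 : ¬ D.Mid i0 := CD.not_mid h.toCD (by simp only [i0]; omega)
  have m1 : ¬ D.Mid i1 := CD.not_mid h.toCD (by simp only [i1]; omega)
  have h01 : i0 ≠ i1 := fun h1 => by simpa [i0, i1] using congrArg Fin.val h1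
  have h01' : i0 ≠ i1.rev := fun h1 => by
    have := congrArg Fin.val h1
    simp only [i0, i1, Fin.val_rev] at this
    omega
  have H0 : ∀ s : F, ∃ g, IsP p g ∧ D.ρ1 g = 1 + single i0 i1 s := by
    intro s
    obtain ⟨g, c', hg, hg'⟩ := h.rootel i0 i1 m0 m1 h01 h01' (s, 0)
    have h1 := congrArg Prod.fst (root_snd h.toCD m0 m1 h01 h01' hg')
    rw [h.swap, Prod.fst_neg, Prod.fst_mul, Prod.fst_mul, Prod.fst_swap, zero_mul, neg_zero] at h1
    have h2 : c'.1 = 0 := (mul_eq_zero.1 h1).resolve_right (J1_ne h i1)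
    refine ⟨g, hg, ?_⟩
    ext i j
    rw [ρ1_apply, hg']
    simp only [Matrix.add_apply, Prod.fst_add, single_apply, one_apply]
    split_ifs <;> simp [h2]
  have H : ∀ a b : Fin d, a ≠ b → ∀ s : F, ∃ g, IsP p g ∧ D.ρ1 g = 1 + single a b s := by
    intro a b hab
    have h1 := root_conj h (root_conj h H0 i0 a) (Equiv.swap i0 a i1) b
    rwa [Equiv.swap_apply_left, Equiv.swap_apply_left, Equiv.swap_apply_of_ne_of_ne _ hab] at h1
    intro h2
    apply h01
    apply (Equiv.swap i0 a).injective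
    rw [Equiv.swap_apply_left, ← h2]
  classical
  refine ⟨fun a b s => if hab : a ≠ b then (H a b hab s).choose else 1, fun a b hab s => ?_⟩
  simp only [dif_pos hab]
  exact (H a b hab s).choose_spec

variable {x : Fin d → Fin d → F → G} (hx : XL p D x) {a b : Fin d} (hab : a ≠ b)
include hx hab

lemma st : St (x a b) (x b a) :=
  (jp_single hab).st (μ := D.ρ1) (fun _ _ => pinj1 h) (hx a b hab) (hx b a hab.symm)

lemma w_act {t : F} (ht : t ≠ 0) :
    D.ρ1 (stW (x a b) (x b a) t) *ᵥ ee a = (-t⁻¹) • ee b ∧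
      D.ρ1 (stW (x a b) (x b a) t) *ᵥ ee b = t • ee a ∧
        ∀ k, k ≠ a → k ≠ b → D.ρ1 (stW (x a b) (x b a) t) *ᵥ ee k = ee k := by
  unfold stW
  rw [map_mul, map_mul, (hx a b hab _).2, (hx b a hab.symm _).2]
  obtain ⟨h1, h2⟩ := plane (X := 1 + single a b t) (Y := 1 + single b a (-t⁻¹)) (e := ee a)
    (f := ee b) (t := t) (u := -t⁻¹) (by rw [one_add_single_ee, if_neg hab])
    (by rw [one_add_single_ee, if_pos rfl]) (by rw [one_add_single_ee, if_pos rfl])
    (by rw [one_add_single_ee, if_neg hab.symm]) (by field_simp)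
  refine ⟨h1, h2, fun k hka hkb => ?_⟩
  rw [← mulVec_mulVec, ← mulVec_mulVec, one_add_single_ee, if_neg hkb, one_add_single_ee,
    if_neg hka, one_add_single_ee, if_neg hkb]

lemma w_mon {t : F} (ht : t ≠ 0) : Mon1 (D.ρ1 (stW (x a b) (x b a) t)) (Equiv.swap a b) := by
  obtain ⟨h1, h2, h3⟩ := w_act h hx hab ht
  intro k
  by_cases hka : k = a
  · rw [hka, Equiv.swap_apply_left]
    exact ⟨Units.mk0 _ (neg_ne_zero.2 (inv_ne_zero ht)), h1⟩
  · by_cases hkb : k = b
    · rw [hkb, Equiv.swap_apply_right]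
      exact ⟨Units.mk0 _ ht, h2⟩
    · rw [Equiv.swap_apply_of_ne_of_ne hka hkb]
      exact ⟨1, by rw [h3 k hka hkb, Units.val_one, one_smul]⟩

lemma h_act {t : F} (ht : t ≠ 0) :
    D.ρ1 (stH (x a b) (x b a) t) *ᵥ ee a = t • ee a ∧
      D.ρ1 (stH (x a b) (x b a) t) *ᵥ ee b = t⁻¹ • ee b ∧
        ∀ k, k ≠ a → k ≠ b → D.ρ1 (stH (x a b) (x b a) t) *ᵥ ee k = ee k := by
  obtain ⟨h1, h2, h3⟩ := w_act h hx hab ht
  obtain ⟨h4, h5, h6⟩ := w_act h hx hab (neg_ne_zero.2 (one_ne_zero (α := F)))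
  unfold stH
  refine ⟨?_, ?_, fun k hka hkb => ?_⟩
  · rw [rho_mulVec, h4, mulVec_smul, h2, smul_smul]; simp
  · rw [rho_mulVec, h5, mulVec_smul, h1, smul_smul]; simp
  · rw [rho_mulVec, h6 k hka hkb, h3 k hka hkb]

lemma T_act {τ : G} (hτ : Mon1 (D.ρ1 τ) 1) : ∃ l : F, l ≠ 0 ∧
    (∀ s, τ * x a b s * τ⁻¹ = x a b (l * s)) ∧ ∀ s, τ * x b a s * τ⁻¹ = x b a (l⁻¹ * s) := by
  obtain ⟨α, hα⟩ := hτ a
  obtain ⟨β, hβ⟩ := hτ b
  refine ⟨α * (β⁻¹ : Fˣ), mul_ne_zero α.ne_zero (Units.ne_zero _), fun s => ?_, fun s => ?_⟩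
  · refine pinj1 h (Def.IsP.conj (hx a b hab s).1 τ) (hx a b hab _).1 ?_
    rw [map_mul, map_mul, (hx a b hab _).2, (hx a b hab _).2, conj_one_add,
      conj_single hα (Mon1.row hτ hβ), mul_right_comm]
    rfl
  · refine pinj1 h (Def.IsP.conj (hx b a hab.symm s).1 τ) (hx b a hab.symm _).1 ?_
    rw [map_mul, map_mul, (hx b a hab.symm _).2, (hx b a hab.symm _).2, conj_one_add,
      conj_single hβ (Mon1.row hτ hα), mul_right_comm, mul_inv, Units.val_inv_eq_inv_val,
      Units.val_inv_eq_inv_val, inv_inv, mul_comm (β : F)]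
    rfl

omit hab in
lemma node [Finite G] (hb : b.val = a.val + 1) :
    Node D.B D.N D.U (D.nd a.val) (x a b) (x b a) := by
  have hab : a ≠ b := fun h1 => by rw [h1] at hb; omega
  have hrk := h.rk_eq
  have hs : D.nd a.val ∈ D.S := CD.nd_mem h.toCD (by omega)
  have hw := Mon1.gm (h.mon_nd a b hb)
  refine (mb h).node hs hw (st h hx hab) (fun s => ?_)
    (fun t ht => Mon1.gm (w_mon h hx hab ht)) h.gen ?_
  · refine (mb h).up' _ (hx a b hab s).1 fun i j hij => ?_
    rw [(hx a b hab s).2, Matrix.add_apply, single_apply, if_neg, add_zero]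
    rintro ⟨rfl, rfl⟩
    omega
  · rintro g ⟨hg, a', b', hab', hg'⟩
    by_cases h1 : a' = a ∧ b' = b
    · right
      obtain ⟨rfl, rfl⟩ := h1
      refine ⟨D.ρ1 g a' b', pinj1 h (CD.isP h.toCD hg) (hx a' b' hab _).1 ?_⟩
      rw [(hx a' b' hab _).2]
      ext i j
      rw [Matrix.add_apply, single_apply]
      by_cases hij : i = j
      · rw [hij, (Ut1 h hg).2, one_apply_eq, if_neg (fun h2 => hab (h2.1.trans h2.2.symm)), add_zero]
      · rw [one_apply_ne hij, zero_add]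
        split_ifs with h2
        · rw [← h2.1, ← h2.2]
        · exact hg' i j hij fun h3 => h2 ⟨h3.1.symm, h3.2.symm⟩
    · left
      refine mem_Kg.2 ⟨hg, (mb h).conj_mem hw (CD.isP h.toCD hg) fun k l hkl => ?_⟩
      by_cases h2 : k = l
      · rw [h2, (Ut1 h hg).2, one_apply_eq]
      · rw [one_apply_ne h2]
        refine hg' k l h2 ?_
        rintro ⟨rfl, rfl⟩
        rw [Equiv.swap_apply_def, Equiv.swap_apply_def] at hkl
        rw [Fin.lt_def] at hab'
        simp only [Fin.ext_iff] at hkl h1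
        split_ifs at hkl <;> omega

end CDL

end Vale.Agent.P183K.Lift
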